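import Vale.Agent.P223Y.Defs
import Vale.Agent.P366M.Int
import Mathlib.Analysis.InnerProductSpace.Orientation
import Mathlib.Analysis.Matrix.Order

/-!
# P223D: the Jacobian density `Jd`; the theorem of Stokes (helper26)
-/

open MeasureTheory Metric Filter Topology Set Function
open scoped ContDiff MatrixOrder
open Vale.Agent.P366 Vale.Agent.P366M
open Vale.Agent.P366.Stmt (E)
open Vale.Agent.P223Y (Jd)

noncomputable section

namespace Vale.Agent.P223D

section E

variable {n : ℕ}

theorem pdE_prod {ι : Type} [DecidableEq ι] (s : Finset ι) {F : ι → E n → ℝ} {y : E n}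
    (hF : ∀ j, DifferentiableAt ℝ (F j) y) (i : Fin n) :
    Stmt.pd i (fun z => ∏ j ∈ s, F j z) y = ∑ l ∈ s, Stmt.pd i (F l) y * ∏ j ∈ s.erase l, F j y := by
  rw [P366Z.pd_of_hasFDerivAt (HasFDerivAt.finsetProd fun j _ => (hF j).hasFDerivAt), sum_apply]
  exact Finset.sum_congr rfl fun l _ => by rw [P366Z.pd_eq (hF l), smul_apply, smul_eq_mul, mul_comm]

theorem piola {k l : Fin n} (h : l ≠ k) {S A : Fin n → Fin n → ℝ} (hS : ∀ a b, S a b = S b a) :
    ∑ σ : Equiv.Perm (Fin n), (Equiv.Perm.sign σ : ℤ) *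
      (S (σ k) (σ l) * ∏ j ∈ (Finset.univ.erase k).erase l, A j (σ j)) = 0 := by
  rw [← CharZero.neg_eq_self_iff, ← Finset.sum_neg_distrib,
    ← Equiv.sum_comp (Equiv.mulRight (Equiv.swap k l))]
  refine Finset.sum_congr rfl fun σ _ => ?_
  simp only [Equiv.coe_mulRight, Equiv.Perm.sign_mul, Equiv.Perm.sign_swap h.symm,
    Equiv.Perm.coe_mul, comp, Equiv.swap_apply_left, Equiv.swap_apply_right, hS (σ l)]
  rw [Finset.prod_congr rfl fun j hj => by
    rw [Equiv.swap_apply_of_ne_of_ne (Finset.ne_of_mem_erase (Finset.mem_of_mem_erase hj))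
      (Finset.ne_of_mem_erase hj)]]
  simp

theorem stokesE {f : Fin n → E n → ℝ} (hf : ∀ j, Stmt.Smooth (f j)) {k : Fin n}
    (hc : HasCompactSupport (f k)) : ∫ y, (Matrix.of fun j i => Stmt.pd i (f j) y).det = 0 := by
  have s : ∀ σ : Equiv.Perm (Fin n), Stmt.Smooth fun y =>
      ∏ j ∈ Finset.univ.erase k, Stmt.pd (σ j) (f j) y := fun σ =>
    contDiff_prod fun j _ => (hf j).pd _
  have e : ∀ y, (Matrix.of fun j i => Stmt.pd i (f j) y).det = ∑ σ : Equiv.Perm (Fin n),
      (Equiv.Perm.sign σ : ℤ) * (Stmt.pd (σ k) (f k) y *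
        ∏ j ∈ Finset.univ.erase k, Stmt.pd (σ j) (f j) y) := fun y => by
    rw [← Matrix.det_transpose, Matrix.det_apply']
    exact Finset.sum_congr rfl fun σ _ => by
      rw [← Finset.mul_prod_erase _ _ (Finset.mem_univ k)]; rfl
  have c : ∀ i, HasCompactSupport (Stmt.pd i (f k)) := fun i =>
    (hc.fderiv ℝ).mono' fun y hy => subset_tsupport _ fun h0 => hy (by
      rw [P366Z.pd_eq ((hf k).diff y), h0]; rfl)
  simp only [e]
  rw [integral_finsetSum _ fun σ _ => (((hf k).pd (σ k)).cont.fun_mul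
    (s σ).cont).integrable_of_hasCompactSupport (c _).mul_right |>.const_mul _]
  have i : ∀ σ : Equiv.Perm (Fin n), ∫ y, (Equiv.Perm.sign σ : ℤ) * (Stmt.pd (σ k) (f k) y *
      ∏ j ∈ Finset.univ.erase k, Stmt.pd (σ j) (f j) y) = -∫ y, (Equiv.Perm.sign σ : ℤ) * (f k y *
        Stmt.pd (σ k) (fun y => ∏ j ∈ Finset.univ.erase k, Stmt.pd (σ j) (f j) y) y) := fun σ => by
    rw [integral_const_mul, integral_const_mul, P366Z.ibp (P366Z.lip_of_supp
      ((hf k).of_le one_le_oo) hc) hc ((s σ).of_le one_le_oo)]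
    ring
  simp only [i]
  rw [Finset.sum_neg_distrib, neg_eq_zero, ← integral_finsetSum _ fun σ _ => ((hf k).cont.fun_mul
    ((s σ).pd (σ k)).cont).integrable_of_hasCompactSupport hc.mul_right |>.const_mul _]
  refine integral_eq_zero_of_ae (.of_forall fun y => ?_)
  simp only [pdE_prod _ fun j => ((hf j).pd _).diff y, Finset.mul_sum, mul_left_comm _ (f k y)]
  rw [Finset.sum_comm]
  refine Finset.sum_eq_zero fun l hl => ?_
  rw [← Finset.mul_sum, piola (Finset.ne_of_mem_erase hl) (S := fun a b =>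
    Stmt.pd a (Stmt.pd b (f l)) y) (A := fun j i => Stmt.pd i (f j) y)
      fun a b => P366Z.pd_comm ((hf l).of_le two_le_oo).contDiffAt a b, mul_zero]

/-- the inequality of Hadamard -/
theorem abs_det_le (A : Matrix (Fin n) (Fin n) ℝ) : |A.det| ≤ ∏ k, √(∑ i, A k i ^ 2) := by
  have : Fact (Module.finrank ℝ (E n) = n) := ⟨finrank_euclideanSpace_fin⟩
  have := (EuclideanSpace.basisFun (Fin n) ℝ).toBasis.orientation.abs_volumeForm_apply_le
    fun k => WithLp.toLp 2 (A k)
  rw [Orientation.volumeForm_robust' _ (EuclideanSpace.basisFun (Fin n) ℝ), Module.Basis.det_apply,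
    ← Matrix.det_transpose] at this
  convert this using 2
  · congr 1
  · simp [EuclideanSpace.norm_eq]

end E

variable {n : ℕ} {X : Type} [Mf0 n X] {g g' : Fld n X} {f f' G : Fin n → X → ℝ} {x : X}
  {u v : X → ℝ} {k : Fin n} {e : Ch n X} {y : E n}

/-- the preferred charts are oriented -/
def Ori (X : Type) [Mf0 n X] : Prop := ∀ (x x' : X) (y : E n), (ch x).symm y ∈ (ch x').source →
  0 < (jac (tm (ch x) (ch x')) y).det

theorem Jd_of_pd (h : ∀ j i, pd i (f j) x = pd i (f' j) x) : Jd g f x = Jd g f' x := by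
  unfold Jd; simp only [h]

theorem Jd_congr (h : ∀ j, f j =ᶠ[𝓝 x] f' j) : Jd g f x = Jd g f' x :=
  Jd_of_pd fun j => pd_congr (h j)

/-- scaling of all rows -/
theorem Jd_scale {c : Fin n → ℝ} (h : ∀ j i, pd i (f j) x = c j * pd i (f' j) x) :
    Jd g f x = (∏ j, c j) * Jd g f' x := by
  unfold Jd; simp only [h]
  rw [← mul_div_assoc, ← Matrix.det_mul_column]; rfl

theorem Jd_comp {Θ : Fin n → ℝ → ℝ} {d : Fin n → ℝ} (hΘ : ∀ j, HasDerivAt (Θ j) (d j) (G j x))
    (hG : ∀ j, DAt (G j) x) : Jd g (fun j z => Θ j (G j z)) x = (∏ j, d j) * Jd g G x :=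
  Jd_scale fun j => pd_comp (hΘ j) (hG j)

theorem Jd_upd (g : Fld n X) (f : Fin n → X → ℝ) (k : Fin n) (u : X → ℝ) (x : X) :
    Jd g (update f k u) x =
      ((Matrix.of fun j i => pd i (f j) x).updateRow k fun i => pd i u x).det / √(mat g x).det := by
  unfold Jd; congr 2; ext j i
  by_cases h : j = k
  · subst h; simp
  · simp [h]

/-- linearity in one slot -/
theorem Jd_update_of_pd {w : X → ℝ} {a b : ℝ} (h : ∀ i, pd i w x = a * pd i u x + b * pd i v x) :
    Jd g (update f k w) x = a * Jd g (update f k u) x + b * Jd g (update f k v) x := by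
  rw [Jd_upd, Jd_upd, Jd_upd, show (fun i => pd i w x) = a • (fun i => pd i u x) +
    b • fun i => pd i v x from funext h, Matrix.det_updateRow_add, Matrix.det_updateRow_smul,
    Matrix.det_updateRow_smul]
  ring

theorem Jd_update_add (hu : DAt u x) (hv : DAt v x) : Jd g (update f k fun z => u z + v z) x =
    Jd g (update f k u) x + Jd g (update f k v) x := by
  simpa using Jd_update_of_pd (a := 1) (b := 1) fun i => by rw [pd_add hu hv]; ring

theorem Jd_update_sub (hu : DAt u x) (hv : DAt v x) : Jd g (update f k fun z => u z - v z) x =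
    Jd g (update f k u) x - Jd g (update f k v) x := by
  rw [Jd_update_of_pd (u := u) (v := v) (a := 1) (b := -1) fun i => by rw [pd_sub hu hv]; ring]; ring

theorem Jd_update_mul (hu : DAt u x) (hv : DAt v x) : Jd g (update f k fun z => u z * v z) x =
    v x * Jd g (update f k u) x + u x * Jd g (update f k v) x :=
  Jd_update_of_pd fun i => by rw [pd_mul hu hv]; ring

theorem Jd_update_smul (c : ℝ) : Jd g (update f k fun z => c * u z) x = c * Jd g (update f k u) x := by
  simpa using Jd_update_of_pd (u := u) (v := u) (a := c) (b := 0) fun i => by rw [pd_const_mul]; ring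

theorem Jd_update_comp {φ : ℝ → ℝ} {d : ℝ} (hφ : HasDerivAt φ d (u x)) (hu : DAt u x) :
    Jd g (update f k fun z => φ (u z)) x = d * Jd g (update f k u) x := by
  simpa using Jd_update_of_pd (u := u) (v := u) (a := d) (b := 0) fun i => by rw [pd_comp hφ hu]; ring

/-- a vanishing differential -/
theorem Jd_zero (h : ∀ i, pd i (f k) x = 0) : Jd g f x = 0 := by
  unfold Jd; rw [Matrix.det_eq_zero_of_row_eq_zero k h, zero_div]

theorem Jd_of_ev {c : ℝ} (h : f k =ᶠ[𝓝 x] fun _ => c) : Jd g f x = 0 := Jd_zero (pd_zero_of_ev h)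

theorem Jd_of_notMem (h : x ∉ tsupport (f k)) : Jd g f x = 0 := Jd_zero (pd_zero_of_notMem h)

/-- two equal differentials -/
theorem Jd_of_eq {l : Fin n} (hl : k ≠ l) (h : ∀ i, pd i (f k) x = pd i (f l) x) : Jd g f x = 0 := by
  unfold Jd; rw [Matrix.det_zero_of_row_eq hl (funext h), zero_div]

theorem Jd_update_self {l : Fin n} (hl : k ≠ l) : Jd g (update f k (f l)) x = 0 :=
  Jd_of_eq hl fun i => by rw [update_self, update_of_ne hl.symm]

theorem Jd_update_sum {ι : Type} (s : Finset ι) {w : ι → X → ℝ} (hw : ∀ p ∈ s, DAt (w p) x) :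
    Jd g (update f k fun z => ∑ p ∈ s, w p z) x = ∑ p ∈ s, Jd g (update f k (w p)) x := by
  classical
  induction s using Finset.induction_on with
  | empty => exact Jd_zero (k := k) fun i => by simp [pd_const]
  | insert a s ha ih =>
    simp only [Finset.sum_insert ha]
    rw [Jd_update_add (hw a (Finset.mem_insert_self _ _)) (DAt.fun_sum fun p hp =>
      hw p (Finset.mem_insert_of_mem hp)), ih fun p hp => hw p (Finset.mem_insert_of_mem hp)]

theorem Jd_perm (σ : Equiv.Perm (Fin n)) :
    Jd g (fun j => f (σ j)) x = (Equiv.Perm.sign σ : ℤ) * Jd g f x := by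
  unfold Jd; rw [← mul_div_assoc, ← Matrix.det_permute]; rfl

theorem det_loc (he : e ∈ At X) (hf : ∀ j, DAt (f j) (e.symm y)) :
    (Matrix.of fun j i => Stmt.pd i (loc e (f j)) y).det =
      (Matrix.of fun j i => pd i (f j) (e.symm y)).det * (J e y).det := by
  rw [← Matrix.det_mul]; congr 1; ext j i
  rw [Matrix.of_apply, pd_rep he (hf j), Matrix.mul_apply]
  exact Finset.sum_congr rfl fun _ _ => mul_comm _ _

theorem abs_Jd_loc (hg : Met g) (he : e ∈ At X) (hf : ∀ j, DAt (f j) (e.symm y)) :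
    P366Z.dens (rep e g) y * |Jd g f (e.symm y)| =
      |(Matrix.of fun j i => Stmt.pd i (loc e (f j)) y).det| := by
  have := Real.sqrt_pos.2 (hg.det_pos (e.symm y))
  rw [det_loc he hf, dens_rep, Jd, abs_div, abs_mul, abs_of_pos this]; field_simp

theorem Jd_loc (ho : Ori X) (hg : Met g) (p : X) (hf : ∀ j, DAt (f j) ((ch p).symm y)) :
    P366Z.dens (rep (ch p) g) y * Jd g f ((ch p).symm y) =
      (Matrix.of fun j i => Stmt.pd i (loc (ch p) (f j)) y).det := by
  have := Real.sqrt_pos.2 (hg.det_pos ((ch p).symm y))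
  rw [det_loc (ch_mem p) hf, dens_rep, Jd, abs_of_pos (show 0 < (J (ch p) y).det from
    ho _ _ _ (mem_ch _))]
  field_simp

theorem sm_Jd (ho : Ori X) (hg : Met g) (hf : ∀ j, Smooth (f j)) : Smooth (Jd g f) :=
  cd_of_cAt le_rfl fun x => by
    have h := hg.rep (ch_mem x)
    have e : loc (ch x) (Jd g f) = fun y => (Matrix.of fun j i =>
        Stmt.pd i (loc (ch x) (f j)) y).det / P366Z.dens (rep (ch x) g) y := funext fun y => by
      rw [← Jd_loc ho hg x fun j => (hf j).diff _, mul_div_cancel_left₀ _ (h.dens_pos y).ne']; rfl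
    rw [CAt, e]
    exact (P366Z.contDiffAt_det fun j i => (Stmt.Smooth.pd (hf j _ (ch_mem x)) i).contDiffAt).div
      h.sm_dens.contDiffAt (h.dens_pos _).ne'

theorem cont_Jd (ho : Ori X) (hg : Met g) (hf : ∀ j, Smooth (f j)) : Continuous (Jd g f) :=
  (sm_Jd ho hg hf).cont

theorem cont_abs_Jd (hg : Met g) (hf : ∀ j, Smooth (f j)) : Continuous fun x => |Jd g f x| :=
  cont_of_loc fun e he => by
    have h := hg.rep he
    have e : loc e (fun x => |Jd g f x|) = fun y => |(Matrix.of fun j i =>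
        Stmt.pd i (loc e (f j)) y).det| / P366Z.dens (rep e g) y := funext fun y => by
      rw [← abs_Jd_loc hg he fun j => (hf j).diff _, mul_div_cancel_left₀ _ (h.dens_pos y).ne']; rfl
    rw [e]
    exact (continuous_matrix fun j i => (Stmt.Smooth.pd (hf j _ he) i).cont).matrix_det.abs.div
      h.sm_dens.cont fun y => (h.dens_pos y).ne'

/-- the inequality of Hadamard -/
theorem abs_Jd_le (hg : Met g) (f : Fin n → X → ℝ) (x : X) : |Jd g f x| ≤ ∏ j, gn g (f j) x := by
  obtain ⟨B, hB⟩ := CStarAlgebra.nonneg_iff_eq_star_mul_self.1 (hg.inv_pos x).posSemidef.nonneg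
  have h := abs_det_le ((Matrix.of fun j i => pd i (f j) x) * B.transpose)
  have d : |B.det| = (√(mat g x).det)⁻¹ := by
    rw [← Real.sqrt_inv, ← Ring.inverse_eq_inv', ← Matrix.det_nonsing_inv, hB, Matrix.det_mul,
      Matrix.star_eq_conjTranspose, Matrix.conjTranspose_eq_transpose_of_trivial,
      Matrix.det_transpose, Real.sqrt_mul_self_eq_abs]
  rw [Matrix.det_mul, Matrix.det_transpose, abs_mul, d] at h
  rw [Jd, abs_div, abs_of_nonneg (Real.sqrt_nonneg _), div_eq_mul_inv]
  refine h.trans (Finset.prod_congr rfl fun j _ => ?_).le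
  unfold gn ip up
  congr 1
  simp only [hB, Matrix.mul_apply, Matrix.star_apply, Matrix.transpose_apply, Matrix.of_apply,
    star_trivial, sq, Finset.sum_mul, Finset.mul_sum]
  rw [Finset.sum_comm]
  refine Finset.sum_congr rfl fun a _ => ?_
  rw [Finset.sum_comm]
  exact Finset.sum_congr rfl fun b _ => Finset.sum_congr rfl fun c _ => by ring

theorem integrable_Jd (ho : Ori X) (hg : Met g) (hf : ∀ j, Smooth (f j)) (hu : Continuous u)
    (hc : HasCompactSupport u) : Integrable (fun x => u x * Jd g f x) (vol g) :=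
  hg.integrable_supp (hu.mul (cont_Jd ho hg hf)) hc.mul_right

theorem supp_Jd (hc : HasCompactSupport (f k)) : HasCompactSupport (Jd g f) :=
  .intro hc fun _ => Jd_of_notMem

theorem sm_update (hf : ∀ j, Smooth (f j)) (hu : Smooth u) : ∀ j, Smooth (update f k u j) :=
  forall_update_iff (p := fun _ w => Smooth w) f |>.2 ⟨hu, fun j _ => hf j⟩

/-- **the theorem of Stokes** -/
theorem stokes (ho : Ori X) (hg : Met g) (hf : ∀ j, Smooth (f j)) (hc : HasCompactSupport (f k)) :
    ∫ x, Jd g f x ∂vol g = 0 := by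
  obtain ⟨t, χ, h1, h2, -, -, h3⟩ := exists_pou hc (fun p => (ch p).symm '' closedBall (pt p) 1)
    fun p => image_nhds p (closedBall_mem_nhds _ one_pos)
  have l : ∀ p, Smooth fun x => χ p x * f k x := fun p => (h1 p).mul (hf k)
  have e0 : f k = fun x => ∑ p ∈ t, χ p x * f k x := funext fun x => by
    by_cases hx : x ∈ tsupport (f k)
    · rw [← Finset.sum_mul, (h3 x hx).self_of_nhds, one_mul]
    · simp [image_eq_zero_of_notMem_tsupport hx]
  have e1 : ∀ x, Jd g f x = ∑ p ∈ t, Jd g (update f k fun x => χ p x * f k x) x := fun x => by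
    rw [← Jd_update_sum t fun p _ => (l p).diff x, ← e0, update_eq_self]
  simp only [e1]
  rw [integral_finsetSum _ fun p _ => hg.integrable_supp (cont_Jd ho hg (sm_update hf (l p)))
    (supp_Jd (k := k) (by rw [update_self]; exact hc.mul_left))]
  refine Finset.sum_eq_zero fun p _ => ?_
  have s : tsupport (update f k (fun x => χ p x * f k x) k) ⊆
      (ch p).symm '' closedBall (pt p) 1 := by
    rw [update_self]; exact tsupport_mul_subset_left.trans (h2 p)
  rw [integral_chart hg (ch_mem p) fun x hx => Jd_of_notMem fun q => hx (image_sub (ch_mem p) _ (s q))]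
  simp only [smul_eq_mul, Jd_loc ho hg p fun j => (sm_update hf (l p) j).diff _]
  exact stokesE (fun j => sm_update hf (l p) j _ (ch_mem p))
    (supp_loc (ch_mem p) (isCompact_closedBall _ _) ((subset_tsupport _).trans s))

/-- integration by parts in the slot `k` -/
theorem ibp_Jd (ho : Ori X) (hg : Met g) (hf : ∀ j, Smooth (f j)) (hu : Smooth u) (hv : Smooth v)
    (hc : HasCompactSupport u) : ∫ x, u x * Jd g (update f k v) x ∂vol g =
      -∫ x, v x * Jd g (update f k u) x ∂vol g := by
  have := stokes ho hg (sm_update (k := k) hf (hu.mul hv)) (k := k) (by rw [update_self]; exact hc.mul_right)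
  simp only [Jd_update_mul (hu.diff _) (hv.diff _)] at this
  rw [integral_add (hg.integrable_supp (hv.cont.fun_mul (cont_Jd ho hg (sm_update hf hu)))
    (supp_Jd (k := k) (by rwa [update_self])).mul_left)
    (integrable_Jd ho hg (sm_update hf hv) hu.cont hc)] at this
  linarith

end Vale.Agent.P223D
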