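import Vale.Agent.P223D.Jd
import Mathlib.Topology.ContinuousMap.StoneWeierstrass
import Mathlib.MeasureTheory.Integral.Pi

/-!
# P223D: the degree as an integral (helper26)
-/

open MeasureTheory Metric Filter Topology Set Function
open scoped ContDiff
open Vale.Agent.P366M
open Vale.Agent.P223Y (Jd)

noncomputable section

namespace Vale.Agent.P223D

/-- smooth functions which vanish outside `[-r, r]` -/
structure Bump (r : ℝ) (θ : ℝ → ℝ) : Prop where
  sm : ContDiff ℝ ∞ θ
  out : ∀ t, r < |t| → θ t = 0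

theorem Bump.cs {r : ℝ} {θ : ℝ → ℝ} (h : Bump r θ) : HasCompactSupport θ :=
  .intro (isCompact_Icc (a := -r) (b := r)) fun t ht => h.out t (not_le.1 fun q => ht (abs_le.1 q))

theorem Bump.int {r : ℝ} {θ : ℝ → ℝ} (h : Bump r θ) : Integrable θ :=
  h.sm.continuous.integrable_of_hasCompactSupport h.cs

theorem exists_prim {θ : ℝ → ℝ} (h : ContDiff ℝ ∞ θ) :
    ∃ Θ : ℝ → ℝ, ContDiff ℝ ∞ Θ ∧ ∀ t, HasDerivAt Θ (θ t) t := by
  have d t : HasDerivAt (fun t => ∫ s in (0 : ℝ)..t, θ s) (θ t) t :=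
    (h.continuous.integral_hasStrictDerivAt 0 t).hasDerivAt
  exact ⟨_, contDiff_infty_iff_deriv.2 ⟨fun t => (d t).differentiableAt, by
    rwa [funext fun t => (d t).deriv]⟩, d⟩

theorem Bump.prim {r : ℝ} {θ : ℝ → ℝ} (h : Bump r θ) (h0 : ∫ t, θ t = 0) :
    ∃ Θ : ℝ → ℝ, Bump r Θ ∧ ∀ t, HasDerivAt Θ (θ t) t := by
  have d t : HasDerivAt (fun t => ∫ s in Iic t, θ s) (θ t) t := by
    have := (h.sm.continuous.integral_hasStrictDerivAt 0 t).hasDerivAt.add_const
      (∫ s in Iic (0 : ℝ), θ s)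
    simpa only [← intervalIntegral.integral_Iic_sub_Iic h.int.integrableOn h.int.integrableOn,
      sub_add_cancel] using this
  refine ⟨_, ⟨contDiff_infty_iff_deriv.2 ⟨fun t => (d t).differentiableAt, by
    rw [funext fun t => (d t).deriv]; exact h.sm⟩, fun t ht => ?_⟩, d⟩
  rcases le_total t 0 with q | q
  · rw [abs_of_nonpos q] at ht
    exact setIntegral_eq_zero_of_forall_eq_zero fun s hs =>
      h.out s (ht.trans_le ((neg_le_neg hs).trans (neg_le_abs s)))
  · rw [abs_of_nonneg q] at ht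
    exact (setIntegral_eq_integral_of_forall_compl_eq_zero fun s hs =>
      h.out s (ht.trans ((not_le.1 hs).trans_le (le_abs_self s)))).trans h0

variable {n : ℕ} {X : Type} [Mf0 n X] {g g' : Fld n X} {f G G' : Fin n → X → ℝ} {O K : Set X}
  {k : Fin n} {r : ℝ} {θ θ' : Fin n → ℝ → ℝ}

theorem integral_vol_eq (hg : Met g) (hg' : Met g') (hO : MeasurableSet O) (F : X → ℝ) :
    ∫ x in O, F x / √(mat g x).det ∂vol g = ∫ x in O, F x / √(mat g' x).det ∂vol g' := by
  let : Mf n X := ⟨g', hg'⟩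
  rw [← integral_indicator hO, ← integral_indicator hO, hg.integral_vol, hg'.integral_vol]
  refine integral_congr_ae (.of_forall fun x => ?_)
  have := Real.sqrt_pos.2 (hg.det_pos x)
  have := Real.sqrt_pos.2 (hg'.det_pos x)
  by_cases q : x ∈ O
  · simp only [dens, indicator_of_mem q]
    field_simp
  · simp [q]

/-- the form `Jd g f · vol g` does not depend on the metric -/
theorem Jd_vol (hg : Met g) (hg' : Met g') (hO : MeasurableSet O) (u : X → ℝ) :
    ∫ x in O, u x * Jd g f x ∂vol g = ∫ x in O, u x * Jd g' f x ∂vol g' := by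
  simp only [Jd, ← mul_div_assoc]
  exact integral_vol_eq hg hg' hO _

theorem abs_Jd_vol (hg : Met g) (hg' : Met g') (hO : MeasurableSet O) (u : X → ℝ) :
    ∫ x in O, u x * |Jd g f x| ∂vol g = ∫ x in O, u x * |Jd g' f x| ∂vol g' := by
  simp only [Jd, abs_div, abs_of_nonneg (Real.sqrt_nonneg _), ← mul_div_assoc]
  exact integral_vol_eq hg hg' hO _

theorem integral_sub_Jd (ho : Ori X) (hg : Met g) (hG : ∀ j, Smooth (G j)) (hG' : ∀ j, Smooth (G' j))
    (hK : IsCompact K) (h : ∀ j, ∀ x ∉ K, G' j x = G j x) :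
    ∫ x, Jd g G' x - Jd g G x ∂vol g = 0 := by
  have sm (s : Finset (Fin n)) j : Smooth (s.piecewise G' G j) := by
    by_cases q : j ∈ s <;> simp [q, hG, hG']
  have i (s t : Finset (Fin n)) :
      Integrable (fun x => Jd g (s.piecewise G' G) x - Jd g (t.piecewise G' G) x) (vol g) :=
    hg.integrable_supp ((cont_Jd ho hg (sm s)).sub (cont_Jd ho hg (sm t))) (.intro hK fun x hx =>
      sub_eq_zero.2 (Jd_congr fun j => by
        filter_upwards [hK.isClosed.isOpen_compl.mem_nhds hx] with z hz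
        by_cases q : j ∈ s <;> by_cases q' : j ∈ t <;> simp [q, q', h j z hz]))
  suffices H : ∀ s : Finset (Fin n),
      ∫ x, Jd g (s.piecewise G' G) x - Jd g (Finset.piecewise ∅ G' G) x ∂vol g = 0 by
    simpa using H Finset.univ
  intro s
  induction s using Finset.induction_on with
  | empty => simp
  | insert k s hk ih =>
    have := stokes ho hg (sm_update (k := k) (sm s) ((hG' k).sub (hG k))) (k := k)
      (by rw [update_self]; exact .intro hK fun x hx => sub_eq_zero.2 (h k x hx))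
    simp only [Jd_update_sub ((hG' k).diff _) ((hG k).diff _), ← Finset.piecewise_insert] at this
    rw [← s.piecewise_eq_of_notMem G' G hk, update_eq_self] at this
    have e := integral_add (i (insert k s) s) (i s ∅)
    rw [this, ih] at e
    simpa using e

/-- **homotopy invariance**: deformations with compact support -/
theorem deg_def (ho : Ori X) (hg : Met g) (hG : ∀ j, Smooth (G j)) (hG' : ∀ j, Smooth (G' j))
    (hK : IsCompact K) (hKO : K ⊆ O) (h : ∀ j, ∀ x ∉ K, G' j x = G j x) :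
    ∫ x in O, Jd g G' x ∂vol g = ∫ x in O, Jd g G x ∂vol g := by
  have z : ∀ x ∉ K, Jd g G' x - Jd g G x = 0 := fun x hx => sub_eq_zero.2 (Jd_congr fun j => by
    filter_upwards [hK.isClosed.isOpen_compl.mem_nhds hx] with z hz using h j z hz)
  have i : IntegrableOn (fun x => Jd g G' x - Jd g G x) O (vol g) := (hg.integrable_supp
    ((cont_Jd ho hg hG').sub (cont_Jd ho hg hG)) (.intro hK z)).integrableOn
  by_cases q : IntegrableOn (Jd g G) O (vol g)
  · have := integral_add i q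
    rw [setIntegral_eq_integral_of_forall_compl_eq_zero fun x hx => z x fun a => hx (hKO a),
      integral_sub_Jd ho hg hG hG' hK h] at this
    simpa using this
  · rw [integral_undef q, integral_undef fun a => q ((Integrable.sub a i).congr (.of_forall fun x => by simp))]

/-- homotopy invariance with a product weight -/
theorem deg_wt (ho : Ori X) (hg : Met g) (hG : ∀ j, Smooth (G j)) (hG' : ∀ j, Smooth (G' j))
    (hK : IsCompact K) (hKO : K ⊆ O) (h : ∀ j, ∀ x ∉ K, G' j x = G j x)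
    (hθ : ∀ j, ContDiff ℝ ∞ (θ j)) : ∫ x in O, (∏ j, θ j (G' j x)) * Jd g G' x ∂vol g =
      ∫ x in O, (∏ j, θ j (G j x)) * Jd g G x ∂vol g := by
  choose Θ a b using fun j => exists_prim (hθ j)
  simpa only [Jd_comp (fun j => b j _) fun j => (hG j).diff _,
    Jd_comp (fun j => b j _) fun j => (hG' j).diff _] using deg_def ho hg
      (fun j => (a j).compM (hG j)) (fun j => (a j).compM (hG' j)) hK hKO
      fun j x hx => congrArg _ (h j x hx)

/-- the theorem of Stokes on an open set -/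
theorem stokes_on (ho : Ori X) (hg : Met g) (hf : ∀ j, Smooth (f j)) (hO : IsOpen O)
    (hK : IsCompact K) (hKO : K ⊆ O) (h : ∀ x ∈ O, x ∉ K →
      (f k =ᶠ[𝓝 x] fun _ => 0) ∨ ∃ j ≠ k, ∀ i, pd i (f j) x = 0) : ∫ x in O, Jd g f x ∂vol g = 0 := by
  obtain ⟨χ, a, b, c, -, d⟩ := exists_cut hK hO hKO
  rw [← integral_indicator hO.measurableSet, ← stokes ho hg
    (sm_update (k := k) hf (a.mul (hf k))) (k := k) (by rw [update_self]; exact b.mul_right)]
  refine integral_congr_ae (.of_forall fun x => ?_)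
  by_cases q : x ∈ O
  · rw [indicator_of_mem q]
    by_cases p : x ∈ K
    · refine Jd_congr fun j => ?_
      by_cases e : j = k
      · rw [e, update_self]
        filter_upwards [d x p] with z hz using by rw [hz, one_mul]
      · rw [update_of_ne e]
    rcases h x q p with s | ⟨j, e, s⟩
    · rw [Jd_of_ev s, Jd_of_ev (k := k) (c := 0)]
      rw [update_self]
      filter_upwards [s] with z hz using by rw [hz, mul_zero]
    · rw [Jd_zero s, Jd_zero (k := j) (by rwa [update_of_ne e])]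
  · rw [indicator_of_notMem q, Jd_of_notMem (k := k)]
    rw [update_self]
    exact fun a => q (c (tsupport_mul_subset_left a))

theorem int_bump (ho : Ori X) (hg : Met g) (hG : ∀ j, Smooth (G j)) (hO : IsOpen O)
    (hK : IsCompact (O ∩ {x | ∀ j, |G j x| ≤ r})) (hθ : ∀ j, Bump r (θ j)) {u : X → ℝ}
    (hu : Continuous u) :
    IntegrableOn (fun x => u x * (∏ j, θ j (G j x)) * Jd g G x) O (vol g) :=
  have := hg.locFin
  (((hu.mul (continuous_finsetProd _ fun j _ => (hθ j).sm.continuous.comp (hG j).cont)).mul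
    (cont_Jd ho hg hG)).continuousOn.integrableOn_compact hK).of_forall_sdiff_eq_zero
    hO.measurableSet fun x hx => by
      obtain ⟨j, q⟩ := not_forall.1 fun a => hx.2 ⟨hx.1, a⟩
      simp [Finset.prod_eq_zero (f := fun j => θ j (G j x)) (Finset.mem_univ j)
        ((hθ j).out _ (not_le.1 q))]

theorem deg_zero (ho : Ori X) (hg : Met g) (hG : ∀ j, Smooth (G j)) (hO : IsOpen O)
    (hK : IsCompact (O ∩ {x | ∀ j, |G j x| ≤ r})) (hθ : ∀ j, Bump r (θ j)) (h0 : ∫ t, θ k t = 0) :
    ∫ x in O, (∏ j, θ j (G j x)) * Jd g G x ∂vol g = 0 := by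
  choose Θ a b using fun j => exists_prim (hθ j).sm
  obtain ⟨H, c, d⟩ := (hθ k).prim h0
  have a' j : ContDiff ℝ ∞ (update Θ k H j) :=
    (forall_update_iff (p := fun _ w => ContDiff ℝ ∞ w) Θ).2 ⟨c.sm, fun j _ => a j⟩ j
  have b' j t : HasDerivAt (update Θ k H j) (θ j t) t :=
    (forall_update_iff (p := fun j w => HasDerivAt w (θ j t) t) Θ).2 ⟨d t, fun j _ => b j t⟩ j
  simp only [← Jd_comp (fun j => b' j _) fun j => (hG j).diff _]
  refine stokes_on ho hg (k := k) (fun j => (a' j).compM (hG j)) hO hK inter_subset_left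
    fun x hx q => ?_
  obtain ⟨j, q⟩ := not_forall.1 fun a => q ⟨hx, a⟩
  by_cases e : j = k
  · subst e
    left
    filter_upwards [(isOpen_lt continuous_const (hG j).cont.abs).mem_nhds (not_le.1 q)] with z hz
    rw [update_self, c.out _ hz]
  · exact .inr ⟨j, e, fun i => by
      rw [pd_comp (b' j _) ((hG j).diff _), (hθ j).out _ (not_le.1 q), zero_mul]⟩

/-- **independence of the bump** -/
theorem deg_bump (ho : Ori X) (hg : Met g) (hG : ∀ j, Smooth (G j)) (hO : IsOpen O)
    (hK : IsCompact (O ∩ {x | ∀ j, |G j x| ≤ r})) (hθ : ∀ j, Bump r (θ j))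
    (hθ' : ∀ j, Bump r (θ' j)) (h1 : ∀ j, ∫ t, θ' j t = 1) :
    ∫ x in O, (∏ j, θ j (G j x)) * Jd g G x ∂vol g =
      (∏ j, ∫ t, θ j t) * ∫ x in O, (∏ j, θ' j (G j x)) * Jd g G x ∂vol g := by
  suffices H : ∀ s : Finset (Fin n), ∫ x in O, (∏ j, s.piecewise θ θ' j (G j x)) * Jd g G x ∂vol g =
      (∏ j ∈ s, ∫ t, θ j t) * ∫ x in O, (∏ j, θ' j (G j x)) * Jd g G x ∂vol g by
    simpa using H Finset.univ
  have bu (s : Finset (Fin n)) j : Bump r (s.piecewise θ θ' j) := by
    by_cases q : j ∈ s <;> simp [q, hθ, hθ']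
  have ib (s : Finset (Fin n)) : Integrable (fun x => (∏ j, s.piecewise θ θ' j (G j x)) * Jd g G x)
      ((vol g).restrict O) := by
    simpa only [one_mul] using (int_bump ho hg hG hO hK (bu s) (continuous_const (y := 1))).integrable
  intro s
  induction s using Finset.induction_on with
  | empty => simp
  | insert k s hk ih =>
    have := deg_zero ho hg hG hO hK (k := k)
      (θ := update (s.piecewise θ θ') k fun t => θ k t - (∫ t, θ k t) * θ' k t)
      ((forall_update_iff (p := fun _ w => Bump r w) _).2 ⟨⟨(hθ k).sm.sub (contDiff_const.mul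
        (hθ' k).sm), fun t ht => by simp [(hθ k).out t ht, (hθ' k).out t ht]⟩, fun j _ => bu s j⟩)
      (by rw [update_self, integral_sub (hθ k).int ((hθ' k).int.const_mul _), integral_const_mul,
        h1, mul_one, sub_self])
    rw [Finset.prod_insert hk, mul_assoc, ← ih, ← sub_eq_zero, ← this, ← integral_const_mul,
      ← integral_sub (ib _) ((ib _).const_mul _)]
    refine integral_congr_ae (.of_forall fun x => ?_)
    simp only [← Finset.mul_prod_erase _ _ (Finset.mem_univ k), update_self,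
      Finset.piecewise_insert_self, Finset.piecewise_eq_of_notMem _ _ _ hk]
    rw [Finset.prod_congr rfl fun j hj => by
        rw [Finset.piecewise_insert_of_ne _ _ _ (Finset.ne_of_mem_erase hj)],
      Finset.prod_congr rfl (f := fun j => update (s.piecewise θ θ') k _ j (G j x)) fun j hj => by
        rw [update_of_ne (Finset.ne_of_mem_erase hj)]]
    ring

/-- **the degree formula** -/
theorem deg_cont (ho : Ori X) (hg : Met g) (hG : ∀ j, Smooth (G j)) (hO : IsOpen O)
    (hK : IsCompact (O ∩ {x | ∀ j, |G j x| ≤ r})) (hθ : ∀ j, Bump r (θ j))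
    (hθ' : ∀ j, Bump r (θ' j)) (h1 : ∀ j, ∫ t, θ' j t = 1) {P : (Fin n → ℝ) → ℝ} (hP : Continuous P) :
    ∫ x in O, P (fun j => G j x) * (∏ j, θ j (G j x)) * Jd g G x ∂vol g =
      (∫ y, P y * ∏ j, θ j (y j)) * ∫ x in O, (∏ j, θ' j (G j x)) * Jd g G x ∂vol g := by
  set D := ∫ x in O, (∏ j, θ' j (G j x)) * Jd g G x ∂vol g
  have cG : Continuous fun x j => G j x := continuous_pi fun j => (hG j).cont
  have z : ∀ y ∉ Icc (fun _ => -r) fun _ => r, ∏ j, θ j (y j) = 0 := fun y hy => by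
    by_contra q
    have := fun j => abs_le.1 (not_lt.1 fun a => Finset.prod_ne_zero_iff.1 q j (Finset.mem_univ j)
      ((hθ j).out _ a))
    exact hy ⟨fun j => (this j).1, fun j => (this j).2⟩
  have i1 (Q : C(Fin n → ℝ, ℝ)) := int_bump ho hg hG hO hK hθ (Q.continuous.comp' cG)
  have i2 (Q : C(Fin n → ℝ, ℝ)) : Integrable fun y => Q y * ∏ j, θ j (y j) :=
    (Q.continuous.mul (continuous_finsetProd _ fun j _ => (hθ j).sm.continuous.comp
      (continuous_apply j))).integrable_of_hasCompactSupport (.intro (isCompact_Icc (a := fun _ => -r)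
        (b := fun _ => r)) fun y hy => by simp [z y hy])
  let Λ : C(Fin n → ℝ, ℝ) →ₗ[ℝ] ℝ :=
    { toFun Q := ∫ x in O, Q (fun j => G j x) * (∏ j, θ j (G j x)) * Jd g G x ∂vol g -
        (∫ y, Q y * ∏ j, θ j (y j)) * D
      map_add' a b := by
        simp only [ContinuousMap.add_apply, add_mul]
        rw [integral_add (i1 a) (i1 b), integral_add (i2 a) (i2 b)]; ring
      map_smul' c a := by
        simp only [ContinuousMap.smul_apply, smul_eq_mul, mul_assoc, integral_const_mul,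
          RingHom.id_apply, mul_sub] }
  let S : Submonoid C(Fin n → ℝ, ℝ) :=
    { carrier := {Q | ∃ p : Fin n → ℝ → ℝ, (∀ j, ContDiff ℝ ∞ (p j)) ∧ ∀ y, Q y = ∏ j, p j (y j)}
      mul_mem' := fun ⟨p, a, b⟩ ⟨q, c, d⟩ => ⟨fun j t => p j t * q j t, fun j => (a j).mul (c j),
        fun y => by simp [b, d, Finset.prod_mul_distrib]⟩
      one_mem' := ⟨fun _ _ => 1, fun _ => contDiff_const, by simp⟩ }
  have hS : ∀ Q ∈ Algebra.adjoin ℝ (S : Set C(Fin n → ℝ, ℝ)), Λ Q = 0 := fun Q hQ => by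
    rw [← Subalgebra.mem_toSubmodule, Algebra.adjoin_eq_span, Submonoid.closure_eq] at hQ
    refine (Submodule.span_le (p := LinearMap.ker Λ)).2 ?_ hQ
    rintro Q ⟨p, a, b⟩
    refine sub_eq_zero.2 ?_
    simp only [b, ← Finset.prod_mul_distrib]
    rw [integral_fintype_prod_volume_eq_prod fun j t => p j t * θ j t]
    exact deg_bump ho hg hG hO hK (θ := fun j t => p j t * θ j t) (fun j => ⟨(a j).mul (hθ j).sm,
      fun t ht => by simp [(hθ j).out t ht]⟩) hθ' h1
  have sep : (Algebra.adjoin ℝ (S : Set C(Fin n → ℝ, ℝ))).SeparatesPoints := fun y y' h => by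
    obtain ⟨k, hk⟩ := ne_iff.1 h
    refine ⟨_, ⟨⟨fun y => y k, continuous_apply k⟩, Algebra.subset_adjoin
      ⟨update (fun _ _ => 1) k id, (forall_update_iff (p := fun _ w => ContDiff ℝ ∞ w) _).2
        ⟨contDiff_id, fun _ _ => contDiff_const⟩, fun y => ?_⟩, rfl⟩, hk⟩
    rw [Finset.prod_eq_single k (fun j _ e => by rw [update_of_ne e]) (by simp), update_self]; rfl
  set C := ∫ x in O, ‖(1 : C(Fin n → ℝ, ℝ)) (fun j => G j x) * (∏ j, θ j (G j x)) * Jd g G x‖ ∂vol g +
    (∫ y, ‖(1 : C(Fin n → ℝ, ℝ)) y * ∏ j, θ j (y j)‖) * |D|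
  have b (y : Fin n → ℝ) (Q : C(Fin n → ℝ, ℝ)) (ε : ℝ)
      (h : ∀ y ∈ Icc (fun _ => -r) fun _ => r, ‖Q y‖ < ε) :
      ‖Q y * ∏ j, θ j (y j)‖ ≤ ε * ‖(1 : C(Fin n → ℝ, ℝ)) y * ∏ j, θ j (y j)‖ := by
    by_cases q : y ∈ Icc (fun _ => -r) fun _ => r
    · rw [ContinuousMap.one_apply, one_mul, norm_mul]
      exact mul_le_mul_of_nonneg_right (h y q).le (norm_nonneg _)
    · simp [z y q]
  have key (ε : ℝ) (hε : 0 < ε) : |Λ ⟨P, hP⟩| ≤ ε * C := by
    obtain ⟨Q, q1, q2⟩ :=
      ContinuousMap.exists_mem_subalgebra_near_continuous_of_isCompact_of_separatesPoints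
        sep ⟨P, hP⟩ (isCompact_Icc (a := fun _ => -r) (b := fun _ => r)) hε
    rw [← abs_neg, ← zero_sub, ← hS Q q1, ← map_sub, mul_add, ← mul_assoc, ← integral_const_mul,
      ← integral_const_mul]
    refine (abs_sub _ _).trans (add_le_add ?_ ?_)
    · refine (Real.norm_eq_abs _).ge.trans
        (norm_integral_le_of_norm_le ((i1 1).norm.const_mul ε) (.of_forall fun x => ?_))
      rw [norm_mul, norm_mul _ (Jd g G x), ← mul_assoc]
      exact mul_le_mul_of_nonneg_right (b _ (Q - ⟨P, hP⟩) ε q2) (norm_nonneg _)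
    · rw [abs_mul]
      exact mul_le_mul_of_nonneg_right ((Real.norm_eq_abs _).ge.trans (norm_integral_le_of_norm_le
        ((i2 1).norm.const_mul ε) (.of_forall fun y => b _ (Q - ⟨P, hP⟩) ε q2))) (abs_nonneg _)
  refine sub_eq_zero.1 (abs_nonpos_iff.1 (ge_of_tendsto (x := 𝓝[>] 0) (f := fun ε => ε * C)
    (tendsto_nhdsWithin_of_tendsto_nhds ?_) (eventually_nhdsWithin_of_forall key)))
  simpa using (continuous_id.mul_const C).tendsto (0 : ℝ)

/-- the bound for the top zones -/
theorem deg_le (ho : Ori X) (hg : Met g) (hG : ∀ j, Smooth (G j)) (hO : IsOpen O)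
    (hK : IsCompact (O ∩ {x | ∀ j, |G j x| ≤ r})) (hθ : ∀ j, Bump r (θ j))
    (hθ' : ∀ j, Bump r (θ' j)) (h1 : ∀ j, ∫ t, θ' j t = 1) {P : (Fin n → ℝ) → ℝ} (hP : Continuous P)
    {c : ℝ} (hc : ∀ y, (∀ j, |y j| ≤ r) → |P y| ≤ c) :
    |∫ x in O, P (fun j => G j x) * (∏ j, θ j (G j x)) * Jd g G x ∂vol g| ≤
      c * (∏ j, ∫ t, |θ j t|) * |∫ x in O, (∏ j, θ' j (G j x)) * Jd g G x ∂vol g| := by
  rw [deg_cont ho hg hG hO hK hθ hθ' h1 hP, abs_mul, ← integral_fintype_prod_volume_eq_prod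
    fun j t => |θ j t|, ← integral_const_mul]
  refine mul_le_mul_of_nonneg_right ((Real.norm_eq_abs _).ge.trans (norm_integral_le_of_norm_le
    (.const_mul (Integrable.fintype_prod fun j => (hθ j).int.abs) _) (.of_forall fun y => ?_)))
    (abs_nonneg _)
  rw [Real.norm_eq_abs, abs_mul, Finset.abs_prod]
  by_cases q : ∀ j, |y j| ≤ r
  · exact mul_le_mul_of_nonneg_right (hc y q) (Finset.prod_nonneg fun _ _ => abs_nonneg _)
  · obtain ⟨j, q⟩ := not_forall.1 q
    rw [Finset.prod_eq_zero (Finset.mem_univ j) (by rw [(hθ j).out _ (not_le.1 q), abs_zero])]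
    simp

/-- the same for the scores `β (G j)` -/
theorem deg_cube (ho : Ori X) (hg : Met g) (hG : ∀ j, Smooth (G j)) (hO : IsOpen O)
    (hK : IsCompact (O ∩ {x | ∀ j, |G j x| ≤ r})) {β b : ℝ → ℝ} (hβ : ∀ t, HasDerivAt β (b t) t)
    (hb : Bump r b) (h0 : ∀ t, 0 ≤ b t) (hi : ∫ t, b t = 1) (hθ' : ∀ j, Bump r (θ' j))
    (h1 : ∀ j, ∫ t, θ' j t = 1) {P : (Fin n → ℝ) → ℝ} (hP : Continuous P) {c : ℝ}
    (hc : ∀ y : Fin n → ℝ, |P fun j => β (y j)| ≤ c) :
    |∫ x in O, P (fun j => β (G j x)) * Jd g (fun j z => β (G j z)) x ∂vol g| ≤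
      c * |∫ x in O, (∏ j, θ' j (G j x)) * Jd g G x ∂vol g| := by
  simpa only [Jd_comp (fun j => hβ _) fun j => (hG j).diff _, mul_assoc, abs_of_nonneg (h0 _), hi,
    Finset.prod_const_one, mul_one] using deg_le ho hg hG hO hK (fun _ => hb) hθ' h1
      (hP.comp' (continuous_pi fun j => (continuous_iff_continuousAt.2 fun t =>
        (hβ t).continuousAt).comp' (continuous_apply j))) fun y _ => hc y

end Vale.Agent.P223D
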