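import Vale.Agent.P223D.Jd
import Vale.Agent.P223U.Defs

/-!
# P223D: `DEF` (helper26)
-/

open Filter Topology Set
open scoped ContDiff
open Vale.Agent.P366M
open Real (smoothTransition)
open Fin (last)

noncomputable section

namespace Vale.Agent.P223D

theorem def' : P223U.DEF := by
  intro r ψ hψ r1
  refine ⟨ψ, hψ.cont, .intro (isCompact_Icc (a := -r) (b := r)) fun t ht => hψ.supp t
    (not_lt.1 fun q => ht (abs_le.1 q.le)), hψ.nn, hψ.int, fun k X _ g G E u hr hG hE hu h => ?_⟩
  have s : ContDiff ℝ ∞ smoothTransition := smoothTransition.contDiff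
  have sσ : Smooth fun x => smoothTransition (u x - 1) := s.compM (CD.sub hu cd_const)
  have k0 : (0 : ℝ) ≤ k := k.cast_nonneg
  have r4 : r ≤ 1 / 4 := by nlinarith [sq_nonneg r]
  refine ⟨Fin.snoc (α := fun _ => X → ℝ) (fun j x => (1 - smoothTransition (u x - 1)) * E j x +
    smoothTransition (u x - 1) * G j.castSucc x) fun x => (1 - smoothTransition (u x - 1)) *
      (smoothTransition (2 * G (last k) x + 1 / 2) * (u x + 1) - 1) +
      smoothTransition (u x - 1) * G (last k) x, fun j => ?_, fun x hx j => ?_, fun x hx q => ?_⟩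
  · refine Fin.lastCases ?_ (fun j => ?_) j
    · rw [Fin.snoc_last]
      exact CD.add (CD.mul (CD.sub cd_const sσ) (CD.sub (CD.mul (s.compM (CD.add (CD.mul cd_const
        (hG _)) cd_const)) (CD.add hu cd_const)) cd_const)) (CD.mul sσ (hG _))
    · rw [Fin.snoc_castSucc]
      exact CD.add (CD.mul (CD.sub cd_const sσ) (hE j)) (CD.mul sσ (hG _))
  · refine Fin.lastCases ?_ (fun j => ?_) j <;>
      simp [smoothTransition.one_of_one_le (show 1 ≤ u x - 1 by linarith)]
  have q' := q
  simp only [Fin.prod_univ_castSucc, Fin.snoc_last, Fin.snoc_castSucc] at q'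
  have a := abs_lt.1 (not_le.1 (mt (hψ.supp _) (right_ne_zero_of_mul q')))
  have b j := not_le.1 (mt (hψ.supp _)
    (Finset.prod_ne_zero_iff.1 (left_ne_zero_of_mul q') j (Finset.mem_univ j)))
  have σ0 := smoothTransition.nonneg (u x - 1)
  have σ1 := smoothTransition.le_one (u x - 1)
  have u0 : -1 < u x := not_le.1 fun c => by
    rw [smoothTransition.zero_of_nonpos (x := u x - 1) (by linarith)] at a
    nlinarith [smoothTransition.nonneg (2 * G (last k) x + 1 / 2)]
  have G0 : 1 / 4 < |G (last k) x| := not_le.1 fun c => by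
    have d := h x (abs_le.2 ⟨by linarith, hx⟩) c _ ⟨σ0, σ1⟩
    have e := Finset.sum_le_card_nsmul Finset.univ _ _ fun j _ =>
      (sq_lt_sq' (abs_lt.1 (b j)).1 (abs_lt.1 (b j)).2).le
    simp only [Finset.card_univ, Fintype.card_fin, nsmul_eq_mul] at e
    nlinarith [sq_nonneg r]
  have G1 : 1 / 4 < G (last k) x := (lt_abs.1 G0).resolve_right fun c => by
    rw [smoothTransition.zero_of_nonpos (x := 2 * _ + _) (by linarith)] at a
    nlinarith
  have u1 : u x < 1 := not_le.1 fun c => by
    rw [smoothTransition.one_of_one_le (x := 2 * _ + _) (by linarith)] at a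
    nlinarith
  have e : ∀ᶠ y in 𝓝 x, smoothTransition (u y - 1) = 0 ∧
      smoothTransition (2 * G (last k) y + 1 / 2) = 1 := by
    filter_upwards [hu.cont.continuousAt.eventually (gt_mem_nhds u1),
      (hG (last k)).cont.continuousAt.eventually (lt_mem_nhds G1)] with y c d using
      ⟨smoothTransition.zero_of_nonpos (by linarith), smoothTransition.one_of_one_le (by linarith)⟩
  refine ⟨abs_le.2 ⟨u0.le, u1.le⟩, G1.le, ?_⟩
  rw [Jd_congr (f' := Fin.snoc (α := fun _ => X → ℝ) E u) fun j => e.mono fun y c => by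
    refine Fin.lastCases ?_ (fun j => ?_) j <;> simp [-one_div, c.1, c.2]]
  simp [-one_div, Fin.prod_univ_castSucc, e.self_of_nhds.1, e.self_of_nhds.2]

end Vale.Agent.P223D
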