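import Vale.Agent.P210F.Inner
import Vale.Agent.P223W.Defs
import Vale.Agent.P223B.Sg

/-!
# P223D: the summed inequality of a sweep made of approximate steps, with the link terms
-/

open Filter Topology Set Finset
open scoped ContDiff
open Vale.Agent.P366M Vale.Agent.P366M.Gr Vale.Agent.P366M.Y.C Vale.Agent.P210G Vale.Agent.P210R
open Vale.Agent.P210U (Up)

noncomputable section

namespace Vale.Agent.P223D

namespace Inn

/-- the real inequality of one approximate step -/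
theorem one {R R' h u t W β f f' N K ε a δ s η V Z Z' y z θ γ L d A : ℝ} (u0 : 0 < u) (u1 : u ≤ 1)
    (W0 : 0 ≤ W) (a0 : 0 ≤ a) (a1 : a ≤ 1 / 100) (δ0 : 0 ≤ δ) (β0 : 0 ≤ β) (ε0 : 0 ≤ ε)
    (hy : y * t = 1 - u) (hz : z * t = s * K + ε) (hV : W * K = V * K)
    (hε : W * ε ≤ η) (hZ : Z' ≤ 1 - u ^ 2) (s0 : 0 ≤ s) (hf : f' ≤ f) (γ0 : 0 ≤ γ) (γ1 : γ ≤ 2 * β)
    (hL : L ≤ u⁻¹ - 1) (d0 : 0 ≤ d) (d1 : 16 * d ≤ a) (h0 : 0 ≤ h) (hA : A ≤ 2 * h + 8 * y ^ 2)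
    (H : R + 3 / 4 * h + Z + (-((1 - a) * y) + W * t + β * (t - z)) ^ 2 +
      2 * (1 - a) * (1 - (1 - a)) * y ^ 2 + 2 * (W + β) * ((1 - u ^ 2) / u) -
      2 * β * (s * f') + 2 * t * N - η ≤ R') :
    R + (h / 2 + Z + ((1 - a) * y + (1 - δ) * (W * t) - β * (t - z)) ^ 2 +
      (2 * δ - δ ^ 2 - θ) * (W * t) ^ 2 + a * (W * Z') + 6 / 5 * a * y ^ 2 +
      2 * β * (1 - u ^ 2) + (2 - δ) * (2 * β) * (W * t ^ 2) -
      (-(2 * t * N) - a * (W * (1 - u ^ 2)) - θ * (W * t) ^ 2 + (γ * (1 - u) - a / 4 * y ^ 2)) -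
      4 * β * η - η - 2 * β * s * f - 2 * β * s * (2 - δ) * (V * K) + γ * L + d * A) ≤ R' := by
  obtain ⟨μ, hμ⟩ : ∃ μ, μ = (1 - u ^ 2) / u := ⟨_, rfl⟩
  have σ0 : 0 ≤ 1 - u ^ 2 := by nlinarith
  have m1 : 1 - u ^ 2 ≤ μ := hμ ▸ (le_div_iff₀ u0).2 (mul_le_of_le_one_right σ0 u1)
  have m2 : 2 * (1 - u) ≤ μ := hμ ▸ (le_div_iff₀ u0).2 (by nlinarith [sq_nonneg (1 - u)])
  have m3 : L ≤ (1 - u) + (μ - (1 - u ^ 2)) := by
    refine hL.trans ?_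
    have e : (1 - u) + (μ - (1 - u ^ 2)) - (u⁻¹ - 1) = (1 - u) ^ 2 := by
      rw [hμ]; field_simp; ring
    nlinarith [sq_nonneg (1 - u)]
  rw [← hμ] at H
  have e : (-((1 - a) * y) + W * t + β * (t - z)) ^ 2 =
      ((1 - a) * y + (1 - δ) * (W * t) - β * (t - z)) ^ 2 + (2 * δ - δ ^ 2) * (W * t) ^ 2 -
        2 * (2 - δ) * ((1 - a) * ((1 - u) * W) - β * (W * t ^ 2) + β * (s * (V * K) + W * ε)) := by
    rw [← hy, ← hV, show s * (W * K) + W * ε = W * (z * t) by rw [hz]; ring]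
    ring
  rw [e] at H
  have a2 : 0 ≤ 1 - a := by linarith
  have b1 := mul_le_mul_of_nonneg_right γ1 (sub_nonneg.2 m1)
  have b2 := mul_le_mul_of_nonneg_left (mul_le_mul_of_nonneg_left m1 W0) a0
  have b3 := mul_le_mul_of_nonneg_left (mul_le_mul_of_nonneg_left m2 W0) a2
  have b4 := mul_nonneg δ0 (mul_nonneg a2 (mul_nonneg (sub_nonneg.2 u1) W0))
  have b5 := mul_le_mul_of_nonneg_left (mul_le_mul_of_nonneg_left hZ W0) a0
  have b6 := mul_le_mul_of_nonneg_left hε β0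
  have b7 := mul_nonneg δ0 (mul_nonneg β0 (mul_nonneg W0 ε0))
  have b8 := mul_le_mul_of_nonneg_left m3 γ0
  have b9 := mul_le_mul_of_nonneg_left hA d0
  have c1 := mul_le_mul_of_nonneg_left hf (mul_nonneg β0 s0)
  have c2 := mul_le_mul_of_nonneg_right d1 h0
  have c3 := mul_le_mul_of_nonneg_right a1 h0
  have c4 := mul_le_mul_of_nonneg_right d1 (sq_nonneg y)
  have c5 := mul_le_mul_of_nonneg_right a1 (mul_nonneg a0 (sq_nonneg y))
  have c7 := mul_nonneg a0 (sq_nonneg y)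
  linarith

variable {n : ℕ} {X : Type} [Mf0 n X] {g₀ g : Fld n X} {w : X → ℝ}

theorem iv_anti {g' : Fld n X} (h : Up g g') (hg : Met g) (hg' : Met g') (a : Fin n → X → ℝ)
    (x : X) : iv g' a a x ≤ iv g a a x := P210U.inv_anti (hg.pos x) (hg'.pos x) (h x) fun i => a i x

/-- the second fundamental form is paid by `hq` and `y²` -/
theorem a2_le (hg : Met g) (hw : Smooth w) {q : ℝ} (q0 : 0 ≤ q) (q1 : q ≤ 1) (x : X) :
    a2 g w x ≤ 2 * hq q g w x + 8 * yy g w x ^ 2 := by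
  have h1 := P210D.hq_nn hg hw (2 * q) x
  have h2 := (met_g hg hw).ip_nonneg (lw g w) x
  have u0 := P210D.uu_pos hg w x
  have u1 := P210D.uu_le hg w x
  have h3 : q ^ 2 * (1 - uu g w x ^ 2) ^ 2 / w x ^ 2 ≤ 4 * yy g w x ^ 2 := by
    rw [P210R.yy, div_pow, ← mul_div_assoc]
    refine div_le_div_of_nonneg_right ?_ (sq_nonneg _)
    have k1 : q ^ 2 ≤ 1 := pow_le_one₀ q0 q1
    have k2 : (1 + uu g w x) ^ 2 ≤ 4 := by nlinarith
    calc q ^ 2 * (1 - uu g w x ^ 2) ^ 2 ≤ 1 * (1 - uu g w x ^ 2) ^ 2 :=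
          mul_le_mul_of_nonneg_right k1 (sq_nonneg _)
      _ = (1 + uu g w x) ^ 2 * (1 - uu g w x) ^ 2 := by ring
      _ ≤ _ := mul_le_mul_of_nonneg_right k2 (sq_nonneg _)
  have e : 2 * hq q g w x - hq (2 * q) g w x = a2 g w x + ip (gb g 1 w) (lw g w) (lw g w) x -
      2 * (q ^ 2 * (1 - uu g w x ^ 2) ^ 2 / w x ^ 2) := by
    simp only [hq]; ring
  linarith

theorem lw_le (hg : Met g) (w : X → ℝ) (x : X) : lw g w x ≤ (uu g w x)⁻¹ - 1 := by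
  rw [uu, inv_inv]
  exact Real.log_le_sub_one_of_pos (w_pos hg w x)

theorem sq_H {p w δ : ℝ} (δ0 : 0 ≤ δ) (δ1 : δ ≤ 1) :
    (-p + (2 - δ) * w) ^ 2 ≤ 2 * p ^ 2 + 8 * w ^ 2 := by
  nlinarith [sq_nonneg (p + (2 - δ) * w), mul_nonneg (mul_nonneg δ0
    (by linarith : 0 ≤ 4 - δ)) (sq_nonneg w)]

theorem link {γ A a Y r : ℝ} (a0 : 0 < a) (Y0 : 0 ≤ Y) (r0 : 0 ≤ r) (h : A ^ 2 ≤ Y * r) :
    γ * A ≤ a / 4 * Y + γ ^ 2 / a * r := by
  refine abs_le_of_sq_le_sq' ?_ (by positivity) |>.2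
  have e : (a / 4 * Y + γ ^ 2 / a * r) ^ 2 = (a / 4 * Y - γ ^ 2 / a * r) ^ 2 +
      γ ^ 2 * (Y * r) := by field_simp; ring
  rw [e, mul_pow]
  nlinarith [mul_le_mul_of_nonneg_left h (sq_nonneg γ), sq_nonneg (a / 4 * Y - γ ^ 2 / a * r)]

theorem p_ge {a y t δ W β s K ε : ℝ} (t0 : 0 < t) (h : 0 ≤ β * ε) :
    (1 - a) * (y * t) + (1 - δ) * (W * t * t) - β * t ^ 2 + β * s * K ≤
      ((1 - a) * y + (1 - δ) * (W * t) - β * (t - (s * K + ε) / t)) * t := by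
  have := congrArg (β * ·) (div_mul_cancel₀ (s * K + ε) t0.ne')
  linarith

theorem sum_in {R b : ℕ → ℝ} {m : ℕ} (H : ∀ j < m, R j + b j ≤ R (j + 1)) : ∀ k ≤ m,
    R 0 + ∑ j ∈ range k, b j ≤ R k
  | 0, _ => by simp
  | k + 1, h => by
    rw [sum_range_succ]
    linarith [sum_in H k (by omega), H k h]

variable {t : ℕ → X → ℝ} {vs : ℕ → Fin n → X → ℝ} {x : X}

/-- the divergence of the normals is the mean curvature up to the errors of the drifts -/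
theorem Dv_nv (hg : Met g) (ht : ∀ j, Smooth (t j)) {j k : ℕ} (hj : j ≤ k) :
    Dv (gs g t k) (vs k) (nv (gs g t j) (t j)) x = hv (gs g t j) (vs j) (t j) x -
      ∑ l ∈ Ico j k, ev (fun i y => vs (l + 1) i y - vg (gs g t l) (vs l) (t l) i y)
        (nv (gs g t j) (t j)) x := by
  induction k, hj using Nat.le_induction with
  | base => simp [hv]
  | succ k h ih =>
    rw [sum_Ico_succ_top h, ← sub_sub, ← ih, ← Dv_g (P210D.met_gs hg ht k) (ht k)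
      ((cv_nv (P210D.met_gs hg ht j) (ht j)).dv (by simp) x)]
    simp only [Dv, ev, gs, sub_mul, sum_sub_distrib]
    ring

/-- the sum of the squares of the mean curvatures in the last metric -/
theorem Dv_sum (h₀ : Met g₀) (hg : Met g) (hu : Up g₀ g) (ht : ∀ j, Smooth (t j)) {m : ℕ}
    {H Z : ℕ → ℝ} {η : ℝ} (η1 : 2 * (m : ℝ) ^ 2 * η ≤ 1) (Z0 : ∀ j < m, 0 ≤ Z j)
    (A2 : ∀ j < m, hv (gs g t j) (vs j) (t j) x ^ 2 ≤ 2 * H j ^ 2 + 8 * Z j + η)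
    (A3 : ∀ j < m, iv g₀ (fun i y => vs (j + 1) i y - vg (gs g t j) (vs j) (t j) i y)
      (fun i y => vs (j + 1) i y - vg (gs g t j) (vs j) (t j) i y) x ≤ η * (1 + Z j)) :
    ∑ j ∈ range m, Dv (gs g t m) (vs m) (nv (gs g t j) (t j)) x ^ 2 ≤
      4 * ∑ j ∈ range m, H j ^ 2 + 17 * ∑ j ∈ range m, Z j + (2 * m + 2 * (m : ℝ) ^ 3) * η := by
  obtain ⟨T, hT⟩ : ∃ T, T = ∑ j ∈ range m, Z j := ⟨_, rfl⟩
  have T0 : 0 ≤ T := hT ▸ sum_nonneg fun j hj => Z0 j (mem_range.1 hj)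
  have k : ∀ j ∈ range m, Dv (gs g t m) (vs m) (nv (gs g t j) (t j)) x ^ 2 ≤
      4 * H j ^ 2 + 16 * Z j + (2 * η + 2 * (m * (η * (m + T)))) := fun j hj => by
    have hj := mem_range.1 hj
    rw [Dv_nv hg ht hj.le]
    obtain ⟨e, he⟩ : ∃ e : ℕ → ℝ, ∀ l, e l = ev (fun i y => vs (l + 1) i y -
      vg (gs g t l) (vs l) (t l) i y) (nv (gs g t j) (t j)) x := ⟨_, fun _ => rfl⟩
    simp only [← he]
    have e1 : ∀ l < m, e l ^ 2 ≤ η * (1 + Z l) := fun l hl => by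
      rw [he]
      refine (P210D.ev_N_sq hg ht j _ x).trans (le_trans ?_ ((iv_anti hu h₀ hg _ x).trans (A3 l hl)))
      exact mul_le_of_le_one_left (iv_nonneg hg _ x) (sub_le_self _ (sq_nonneg _))
    have e2 : (∑ l ∈ Ico j m, e l) ^ 2 ≤ m * (η * (m + T)) := by
      refine sq_sum_le_card_mul_sum_sq.trans (mul_le_mul ?_ ?_ (sum_nonneg fun _ _ => sq_nonneg _)
        (Nat.cast_nonneg _))
      · rw [Nat.card_Ico]; exact_mod_cast Nat.sub_le m j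
      · refine (sum_le_sum_of_subset_of_nonneg (t := range m) (fun l hl => mem_range.2
          (mem_Ico.1 hl).2) fun _ _ _ => sq_nonneg _).trans
          ((sum_le_sum fun l hl => e1 l (mem_range.1 hl)).trans_eq ?_)
        rw [← mul_sum, sum_add_distrib, ← hT]; simp
    nlinarith [A2 j hj, sq_nonneg (hv (gs g t j) (vs j) (t j) x + ∑ l ∈ Ico j m, e l)]
  refine (sum_le_sum k).trans ?_
  simp only [sum_add_distrib, ← mul_sum, ← hT, sum_const, card_range, nsmul_eq_mul]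
  nlinarith [mul_le_mul_of_nonneg_right η1 T0]

end Inn

open Inn P210F.In P223T in
/-- the summed inequality of a sweep of approximate steps, with the link terms -/
theorem inn_pt {n : ℕ} {X : Type} [Mf0 n X] {g₀ g : Fld n X} {V K W t : ℕ → X → ℝ} {m : ℕ}
    {θ Λ a α s η δ γ d r₀ : ℝ} {ε : ℕ → ℝ} {vs : ℕ → Fin n → X → ℝ} {x : X} (h₀ : Met g₀)
    (hg : Met g) (hu : Up g₀ g) (hK : Dis K m) (ht : ∀ j, Smooth (t j)) (t0 : ∀ j, 0 < t j x)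
    (W0 : ∀ j, 0 ≤ W j x) (a0 : 0 < a) (a1 : a ≤ 1 / 100) (δ0 : 0 < δ) (δ1 : δ ≤ 1) (α0 : 0 < α)
    (s0 : 0 < s) (θ0 : 0 ≤ θ) (r0 : 0 ≤ r₀) (Λ0 : 0 ≤ Λ) (hΛ : 64 * s ^ 2 * Λ ≤ α ^ 2) (γ0 : 0 ≤ γ)
    (γ1 : 8 * γ * s ≤ α) (d0 : 0 ≤ d) (d1 : 16 * d ≤ a)
    (η1 : 2 * (m : ℝ) ^ 2 * η ≤ 1) (ε0 : ∀ j < m, 0 ≤ ε j) (ε1 : ∀ j < m, W j x * ε j ≤ η)
    (old : ∀ j < m, K j x ≠ 0 → W j x = V j x)
    (gW : ∀ j < m, ip g₀ (W j) (W j) x ≤ W j x * (θ * W j x ^ 2 + Λ))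
    (ap : ∀ j < m, Ap g₀ (gs g t j) (vs j) (W j) (K j) (1 - a) (α / (2 * s)) s (ε j) η (t j)
      (vs (j + 1)) x) {r S A₀ Xs b Y : ℝ} (hr : r = rr r₀ t m x)
    (hS : S = ∑ j ∈ range m, (1 - uu (gs g t j) (t j) x ^ 2)) (hA : A₀ = aa g t m x)
    (hX : Xs = ∑ j ∈ range m, W j x * t j x ^ 2) (hb : b = ∑ j ∈ range m, (W j x * t j x) ^ 2)
    (hY : Y = ∑ j ∈ range m, yy (gs g t j) (t j) x ^ 2) :
    tt g t m x ≤ S ∧ A₀ ≤ S ∧ S ≤ 2 * A₀ ∧ Xs ^ 2 ≤ b * r ∧ A₀ ^ 2 ≤ Y * r ∧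
    0 ≤ ∑ j ∈ range m, hq (1 - a) (gs g t j) (t j) x ∧ ∃ P D Z : ℝ, 0 ≤ P ∧ 0 ≤ Z ∧
      (0 ≤ (1 - a) * A₀ + (1 - δ) * Xs + α * (s - r) / (2 * s) →
        ((1 - a) * A₀ + (1 - δ) * Xs + α * (s - r) / (2 * s)) ^ 2 ≤ P * r) ∧
      D ≤ 2 * (Λ + γ ^ 2) / a * r ∧ D ≤ α / (4 * s) * (S + Xs) ∧
      ∑ j ∈ range m, Dv (gs g t m) (vs m) (nv (gs g t j) (t j)) x ^ 2 ≤
        8 * P + 32 * b + 17 * Z + (2 * m + 2 * (m : ℝ) ^ 3) * η ∧
      SS δ α V g (vs 0) K m x + (∑ j ∈ range m, hq (1 - a) (gs g t j) (t j) x) / 2 + Z + P +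
        (2 * δ - δ ^ 2 - 2 * θ / a) * b + a * ∑ j ∈ range m, W j x * ip (gs g t m) (t j) (t j) x +
        6 / 5 * a * Y + α / s * S + (2 - δ) * α * Xs / s - D - (2 * m * α * η / s + m * η) +
        γ * ∑ j ∈ range m, lw (gs g t j) (t j) x + d * ∑ j ∈ range m, a2 (gs g t j) (t j) x ≤
        Rv (gs g t m) (vs m) x := by
  have mt := P210D.met_gs hg ht
  obtain ⟨β, hβ⟩ : ∃ β, β = α / (2 * s) := ⟨_, rfl⟩
  rw [← hβ] at ap
  have β0 : 0 < β := hβ ▸ by positivity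
  have e0 : α = 2 * β * s := by rw [hβ]; field_simp
  have γ2 : γ ≤ 2 * β := le_of_mul_le_mul_right (by linarith [mul_nonneg γ0 s0.le]) s0
  choose! Z Z0 A1 A2 A3 using ap
  have ipt : ∀ j < m, ip (gs g t m) (t j) (t j) x ≤ 1 - uu (gs g t j) (t j) x ^ 2 := fun j h => by
    rw [← P210D.ip_g_self (mt j)]
    simpa only [iv_df, gs] using P210D.iv_le hg ht (show j + 1 ≤ m from h) (df (t j)) x
  have yt : ∀ j, yy (gs g t j) (t j) x * t j x = 1 - uu (gs g t j) (t j) x := fun j =>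
    div_mul_cancel₀ _ (t0 j).ne'
  obtain ⟨p, hp⟩ : ∃ p : ℕ → ℝ, ∀ j, p j = (1 - a) * yy (gs g t j) (t j) x +
    (1 - δ) * (W j x * t j x) - β * (t j x - (s * K j x + ε j) / t j x) := ⟨_, fun _ => rfl⟩
  obtain ⟨D, hD⟩ : ∃ D : ℕ → ℝ, ∀ j, D j = -(2 * t j x * dn (gs g t j) (t j) (W j) x) -
    a * (W j x * (1 - uu (gs g t j) (t j) x ^ 2)) - 2 * θ / a * (W j x * t j x) ^ 2 :=
    ⟨_, fun _ => rfl⟩
  have hd : ∀ j < m, D j ≤ 2 * Λ / a * t j x ^ 2 ∧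
      D j ≤ α / (8 * s) * ((1 - uu (gs g t j) (t j) x ^ 2) + W j x * t j x ^ 2) := fun j hj => by
    rw [hD]
    refine two (W0 j) (P210D.sg_nn hg ht j x) θ0 Λ0 a0 (by positivity) ?_
      ((P210D.dn_sq hg ht j _ x).trans (mul_le_mul_of_nonneg_left
        ((P210V.ip_anti hu h₀ hg _ x).trans (gW j hj)) (P210D.sg_nn hg ht j x)))
    rw [div_pow, le_div_iff₀ (by positivity)]
    linarith
  have e1 : A₀ = ∑ j ∈ range m, yy (gs g t j) (t j) x * t j x := by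
    simp only [hA, aa, yt]
  have e2 : Xs = ∑ j ∈ range m, W j x * t j x * t j x := by
    simp only [hX, sq, mul_assoc]
  have f1 : A₀ ≤ S := hS ▸ hA ▸ P210D.aa_le_th hg ht m x
  have f2 : A₀ ^ 2 ≤ Y * r := e1 ▸ hY ▸ hr ▸ cs _ _ r0
  have f3 : 0 ≤ A₀ := hA ▸ P210D.aa_nn hg ht m x
  have Y0 : 0 ≤ Y := hY ▸ sum_nonneg fun _ _ => sq_nonneg _
  have X0 : 0 ≤ Xs := hX ▸ sum_nonneg fun j _ => mul_nonneg (W0 j) (sq_nonneg _)
  have r1 : ∑ j ∈ range m, t j x ^ 2 ≤ r := hr ▸ le_add_of_nonneg_left r0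
  have r2 : 0 ≤ r := (sum_nonneg fun _ _ => sq_nonneg _).trans r1
  refine ⟨hS ▸ sum_le_sum fun j hj => ipt j (mem_range.1 hj), f1,
    hS ▸ hA ▸ P210D.th_le_aa hg ht m x, e2 ▸ hb ▸ hr ▸ cs _ _ r0, f2,
    sum_nonneg fun j _ => P210D.hq_nn (mt j) (ht j) _ x, ∑ j ∈ range m, p j ^ 2,
    ∑ j ∈ range m, D j + (γ * A₀ - a / 4 * Y), ∑ j ∈ range m, Z j,
    sum_nonneg fun _ _ => sq_nonneg _, sum_nonneg fun j hj => Z0 j (mem_range.1 hj),
    fun q => ?_, ?_, ?_, ?_, ?_⟩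
  · refine (pow_le_pow_left₀ q ?_ 2).trans (by rw [hr]; exact cs p (fun j => t j x) r0)
    have e3 : ∀ j ∈ range m, (1 - a) * (yy (gs g t j) (t j) x * t j x) +
        (1 - δ) * (W j x * t j x * t j x) - β * t j x ^ 2 + β * s * K j x ≤ p j * t j x :=
      fun j hj => hp j ▸ p_ge (t0 j) (mul_nonneg β0.le (ε0 j (mem_range.1 hj)))
    have e4 := sum_le_sum e3
    simp only [sum_add_distrib, sum_sub_distrib, ← mul_sum, hK.one, ← e1, ← e2] at e4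
    rw [show α * (s - r) / (2 * s) = β * (s - r) by rw [hβ]; ring, hr, rr]
    linarith [mul_nonneg β0.le r0]
  · have k1 : ∑ j ∈ range m, D j ≤ 2 * Λ / a * r := by
      refine (sum_le_sum fun j hj => (hd j (mem_range.1 hj)).1).trans ?_
      rw [← mul_sum]
      exact mul_le_mul_of_nonneg_left r1 (by positivity)
    have k2 := link (γ := γ) a0 Y0 r2 f2
    have k3 : 0 ≤ γ ^ 2 / a * r := by positivity
    have e : 2 * (Λ + γ ^ 2) / a * r = 2 * Λ / a * r + 2 * (γ ^ 2 / a * r) := by ring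
    linarith
  · have k1 : ∑ j ∈ range m, D j ≤ α / (8 * s) * (S + Xs) := by
      refine (sum_le_sum fun j hj => (hd j (mem_range.1 hj)).2).trans_eq ?_
      rw [← mul_sum, sum_add_distrib, hS, hX]
    have k2 : γ ≤ α / (8 * s) := by rw [le_div_iff₀ (by positivity)]; linarith
    have k3 := mul_le_mul k2 (f1.trans (le_add_of_nonneg_right X0)) f3 (by positivity)
    have e : α / (4 * s) * (S + Xs) = 2 * (α / (8 * s) * (S + Xs)) := by field_simp; ring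
    linarith [mul_nonneg a0.le Y0]
  · refine (Dv_sum h₀ hg hu ht η1 Z0 A2 A3).trans ?_
    have k : ∑ j ∈ range m, H0 (gs g t j) (W j) (K j) (1 - a) β s (ε j) (t j) x ^ 2 ≤
        2 * ∑ j ∈ range m, p j ^ 2 + 8 * b := by
      rw [hb, mul_sum, mul_sum, ← sum_add_distrib]
      refine sum_le_sum fun j hj => ?_
      rw [show H0 (gs g t j) (W j) (K j) (1 - a) β s (ε j) (t j) x =
        -p j + (2 - δ) * (W j x * t j x) by rw [H0, hp]; ring]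
      exact sq_H δ0.le δ1
    linarith
  · have k := sum_in (R := fun j => Rv (gs g t j) (vs j) x) (m := m) (fun j hj =>
      one (δ := δ) (θ := 2 * θ / a) (f := fi g (K j) x) (V := V j x) (K := K j x) (γ := γ) (d := d)
        (P210D.uu_pos (mt j) _ x) (P210D.uu_le (mt j) _ x) (W0 j) a0.le a1 δ0.le β0.le (ε0 j hj)
        (yt j) (div_mul_cancel₀ _ (t0 j).ne') ((eq_or_ne (K j x) 0).elim (fun q => by simp [q])
          fun q => by rw [old j hj q]) (ε1 j hj) (ipt j hj) s0.le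
        (div_le_div_of_nonneg_right (by
          simpa only [iv_df, gs] using P210D.iv_le hg ht j.zero_le (df (K j)) x)
          (mul_nonneg (by norm_num) (hK.nn j x)))
        γ0 γ2 (lw_le (mt j) _ x) d0 d1 (P210D.hq_nn (mt j) (ht j) _ x)
        (a2_le (mt j) (ht j) (by linarith) (by linarith) x) (A1 j hj)) m le_rfl
    simp only [← hp, ← hD] at k
    simp only [sum_add_distrib (ι := ℕ), sum_sub_distrib (ι := ℕ), ← mul_sum, ← hb, ← hY, ← hX,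
      ← sum_div, sum_const, card_range, nsmul_eq_mul, gs] at k
    rw [SS, En, hS, hA, aa, show α / s = 2 * β by rw [hβ]; ring, show (2 - δ) * α * Xs / s =
      (2 - δ) * (2 * β) * Xs by rw [hβ]; ring, show 2 * m * α * η / s = m * (4 * β * η) by
        rw [hβ]; ring, e0]
    simp only [sum_sub_distrib (ι := ℕ), sum_const, card_range, nsmul_eq_mul]
    linarith

theorem ld_gs {n : ℕ} {X : Type} [Mf0 n X] {g : Fld n X} {t : ℕ → X → ℝ} (hg : Met g)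
    (ht : ∀ j, Smooth (t j)) (x : X) : ∀ m, P223B.ld (gs g t m) x - P223B.ld g x =
      ∑ j ∈ range m, lw (gs g t j) (t j) x
  | 0 => by simp [gs]
  | m + 1 => by
    rw [sum_range_succ, ← ld_gs hg ht x m, gs, P223B.ld_gb (P210D.met_gs hg ht m)]; ring

/-- **INN** -/
theorem inn : P223W.INN := by
  intro n X _ g₀ Λ U V K m θ a α s η d g h' ε W t vs δ r₀ x S a0 a1 δ0 δ1 α0 s0 θ0 r0 Λ0 hΛ hs _ η1
    r S' A₀ Xs b Y hr hS hA hX hb hY
  obtain ⟨h1, h2, h3, h4, h5, h6, P, D, Z, k1, k2, k3, k4, k5, k6, k7⟩ := inn_pt (V := V) (γ := 1)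
    (d := a / 16) S.m0 S.met S.up S.dis S.smt (S.t0 · x) (S.W0 · x) a0 a1 δ0 δ1 α0 s0 θ0 r0 Λ0 hΛ
    zero_le_one (by linarith) (by positivity) (by linarith) η1 (fun j hj => (S.aps j hj).e0.le)
    (fun j hj => (S.aps j hj).e2 x) (fun j hj => (S.aps j hj).old x)
    (fun j hj => (S.aps j hj).gW x) (fun j hj => (S.aps j hj).est x) hr hS hA hX hb hY
  refine ⟨h1, h2, h3, h4, h5, h6, P, D, Z, k1, k2, k3, by rwa [one_pow] at k4, k5, k6, ?_⟩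
  have := mul_nonneg a0.le (sum_nonneg fun j (_ : j ∈ range m) => mul_nonneg (S.W0 j x)
    ((P210D.met_gs S.met S.smt m).ip_nonneg (t j) x))
  rw [ld_gs S.met S.smt]
  linarith

end Vale.Agent.P223D
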