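import Vale.Agent.P223D.Jd
import Vale.Agent.P223U.Defs

/-!
# P223D: integrals along the neck; `TRACE` and `NIJ` (helper26)
-/

open MeasureTheory Metric Filter Topology Set
open scoped ContDiff
open Vale.Agent.P366 hiding E
open Vale.Agent.P366.Stmt (E)
open Vale.Agent.P366D (Sub pull ini pb smooth_comp)
open Vale.Agent.P366P (Cy B0)
open Vale.Agent.P366M Vale.Agent.P366M.Gr Vale.Agent.P366M.Y.C Vale.Agent.P366M.An
open Vale.Agent.P223Y (Jd)
open Fin (last)

noncomputable section

namespace Vale.Agent.P223D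

section C0

variable {I : Type} {l : Filter I} {o : I} {n : ℕ} {x : E n} {U V : I → E n → ℝ}

/-- continuous functions which converge continuously at `x` -/
structure C0 (l : Filter I) (o : I) (U : I → E n → ℝ) (x : E n) : Prop where
  ct : ∀ᶠ p in l ×ˢ 𝓝 x, ContinuousAt (U p.1) p.2
  cv : Tendsto (fun p : I × E n => U p.1 p.2) (l ×ˢ 𝓝 x) (𝓝 (U o x))

theorem c0_of (h : B0 l o U x) : C0 l o U x := ⟨h.sm.mono fun _ q => q.continuousAt, h.cv⟩

theorem C0.map₂ (h : C0 l o U x) (k : C0 l o V x) {φ : ℝ × ℝ → ℝ} (hφ : Continuous φ) :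
    C0 l o (fun i y => φ (U i y, V i y)) x :=
  ⟨(h.ct.and k.ct).mono fun _ q => hφ.continuousAt.comp (q.1.prodMk q.2),
    (hφ.tendsto _).comp (h.cv.prodMk_nhds k.cv)⟩

theorem c0_comp {a m : ℕ} {Ψ : I → E n → E a} (h : P366P.CvM l o m Ψ x) {F : E a → ℝ}
    (hF : Continuous F) : C0 l o (fun i y => F (Ψ i y)) x :=
  ⟨h.sm.mono fun _ q => hF.continuousAt.comp q.continuousAt, (hF.tendsto _).comp h.cv⟩

theorem tendsto_setIntegral {K : Set (E n)} (hK : IsCompact K) (ho : pure o ≤ l)
    (h : ∀ x ∈ K, C0 l o U x) : Tendsto (fun i => ∫ x in K, U i x) l (𝓝 (∫ x in K, U o x)) := by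
  have hi : ∀ᶠ i in l, IntegrableOn (U i) K :=
    (P366P.ev_cpt (P := fun i y => ContinuousAt (U i) y) hK fun x hx => (h x hx).ct).mono fun _ q =>
      ContinuousOn.integrableOn_compact hK fun x hx => (q x hx).continuousWithinAt
  refine Metric.tendsto_nhds.2 fun ε hε => ?_
  have v0 : 0 ≤ volume.real K := measureReal_nonneg
  have hδ : 0 < ε / (volume.real K + 1) := by positivity
  filter_upwards [hi, P366P.unif_of_tendsto hK ho (fun x hx => (h x hx).cv) hδ] with i a b
  rw [Real.dist_eq, ← integral_sub a (hi.filter_mono ho)]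
  refine (norm_setIntegral_le_of_norm_le_const (f := fun x => U i x - U o x) hK.measure_lt_top
    b).trans_lt ?_
  rw [div_mul_eq_mul_div, div_lt_iff₀ (by positivity)]
  nlinarith

theorem det_last (A : Matrix (Fin (n + 1)) (Fin (n + 1)) ℝ)
    (h : ∀ i, A (last n) i = if i = last n then 1 else 0) :
    A.det = (Matrix.of fun j i : Fin n => A j.castSucc i.castSucc).det := by
  rw [Matrix.det_succ_row _ (last n), Fin.sum_univ_castSucc, Finset.sum_eq_zero fun j _ => by
    simp [h]]
  simp only [h, if_true, zero_add, mul_one, Fin.succAbove_last]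
  rw [← two_mul, pow_mul]
  simp only [even_two, Even.neg_pow, one_pow, one_mul]
  rfl

end C0

variable {I : Type} {k : ℕ} {X : Type} [Mf0 (k + 1) X] {Z : Type} [Mf0 k Z] {g : Fld (k + 1) X}
  {l : Filter I} {u w : I → X → ℝ} {S : ℝ} {B : Set X} {ι : Z → X} {ϖ : Z → ℝ}

/-- the densities `w i` of the slabs converge to the density `ϖ` of the cylinder -/
structure Adm (l : Filter I) (g : Fld (k + 1) X) (u : I → X → ℝ) (S : ℝ) (ι : Z → X)
    (w : I → X → ℝ) (ϖ : Z → ℝ) : Prop where
  cw : ∀ i, Continuous (w i)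
  cv0 : Continuous ϖ
  cv : ∀ e φ π y₀ r Ψ V c, Dt l u S ι e φ π y₀ r Ψ V c → ∃ D : Option I → E (k + 1) → ℝ,
    ∀ x ∈ Cy (closedBall y₀ r) S, C0 (fl l) none D x ∧
      D none x = P366Z.dens (rep c (pull ι g)) (ini x) * ϖ (c.symm (ini x)) ∧
      ∀ i, Pt (u i) e π (Ψ i) x →
        D (some i) x = w i (e.symm (Ψ i x)) * P366Z.dens (pb (Ψ i) (rep e g)) x

theorem Adm.loc (A : Adm l g u S ι w ϖ) {e φ π y₀ r Ψ V c} (h : Dt l u S ι e φ π y₀ r Ψ V c)
    (hι : Sub ι B) (hg : Met g) (hs : ∀ᶠ i in l, Slab (u i) S) {ψ : X → ℝ} (hψ : Continuous ψ)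
    (h0 : ∀ x, ψ x ≠ 0 → x ∈ V) {θ : ℝ → ℝ} (hθ : Continuous θ) (h1 : ∀ s, θ s ≠ 0 → |s| ≤ S) :
    Tendsto (fun i => ∫ x, ψ x * θ (u i x) * w i x ∂vol g) l
      (𝓝 ((∫ z, ψ (ι z) * ϖ z ∂vol (pull ι g)) * ∫ s in Icc (-S) S, θ s)) := by
  have hK := P366P.cpt_Cy (isCompact_closedBall y₀ r) S
  obtain ⟨D, hD⟩ := A.cv _ _ _ _ _ _ _ _ h
  have t1 := (tendsto_setIntegral (U := fun i y => ψ (e.symm (fam Ψ φ i y)) * θ (y (last k)) * D i y)
    hK le_sup_right fun x hx => ((c0_comp (h.rg.cvM hx) (cont_loc h.rg.mem hψ)).map₂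
      (c0_comp (P366P.cvM_id le_sup_right 0 x) (F := fun y => θ (y (last k))) (by fun_prop))
        continuous_mul).map₂ (hD x hx).1 continuous_mul).comp (tendsto_fl l)
  rw [← h.int (hι.met hg) _ h0, ← P366P.integral_Cy]
  convert t1.congr' ?_ using 2
  · refine setIntegral_congr_fun hK.measurableSet fun x hx => ?_
    simp only [(hD x hx).2.1, (h.lim_f hx ψ).self_of_nhds, P366M.loc]
    ring
  · filter_upwards [h.rg.pt hs, h.rg.cov] with i p q
    rw [← setIntegral_eq_integral_of_forall_compl_eq_zero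
      (s := e.symm '' (Ψ i '' Cy (closedBall y₀ r) S)) fun x hx => ?_,
      integral_param hg h.rg.mem hK.measurableSet
        (fun x hx => (p x hx).sm.self_of_nhds.1.differentiableAt (by simp)) (inj_of_pt p)]
    · refine setIntegral_congr_fun hK.measurableSet fun x hx => ?_
      simp only [fam, (hD x hx).2.2 i (p x hx), (p x hx).sm.self_of_nhds.2]
      ring
    · by_contra a
      exact hx (q x (h0 x (left_ne_zero_of_mul (left_ne_zero_of_mul a)))
        (h1 _ (right_ne_zero_of_mul (left_ne_zero_of_mul a))))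

/-- **NI**: the integrals along the neck near a compact part of the hypersurface -/
theorem Adm.glob (A : Adm l g u S ι w ϖ) (hι : Sub ι B) (hg : Met g) (hu : ∀ i, Continuous (u i))
    (hs : ∀ᶠ i in l, Slab (u i) S) (hr : ∀ z, Rg l u S ι z) {C : Set X} (hC : IsCompact C)
    (hB : C ⊆ B) : ∃ ψ : X → ℝ, Continuous ψ ∧ (∀ x, 0 ≤ ψ x ∧ ψ x ≤ 1) ∧
      (∀ x ∈ C, ∀ᶠ y in 𝓝 x, ψ y = 1) ∧ HasCompactSupport (fun z => ψ (ι z)) ∧
      ∀ ζ, Continuous ζ → ∀ θ, Continuous θ → (∀ s, θ s ≠ 0 → |s| ≤ S) →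
        Tendsto (fun i => ∫ x, ψ x * ζ x * θ (u i x) * w i x ∂vol g) l
          (𝓝 ((∫ z, ψ (ι z) * ζ (ι z) * ϖ z ∂vol (pull ι g)) * ∫ s in Icc (-S) S, θ s)) := by
  classical
  choose e φ π y₀ r Ψ V c h hV _ _ using fun z => (hr z).dt hι univ_mem
  have ex : ∀ p ∈ C, ∃ z, ι z = p := fun p hp => by have := hB hp; rwa [← hι.rng] at this
  obtain ⟨z₀⟩ : Nonempty Z := inferInstance
  choose! σ hσ using ex
  obtain ⟨t, χ, a1, a2, a3, a4, a5⟩ := exists_pou hC
    (fun p => if p ∈ C then V (σ p) ∩ (ch p).symm '' closedBall (pt p) 1 else Cᶜ) fun p => by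
      split_ifs with q
      · exact inter_mem (by simpa only [hσ p q] using hV (σ p)) (image_nhds p (closedBall_mem_nhds _ one_pos))
      · exact hC.isClosed.isOpen_compl.mem_nhds q
  have b1 : ∀ p ∈ t.filter (· ∈ C), (∀ x, χ p x ≠ 0 → x ∈ V (σ p)) ∧ HasCompactSupport (χ p) ∧
      HasCompactSupport fun z => χ p (ι z) := fun p hp => by
    have := a2 p
    rw [if_pos (Finset.mem_filter.1 hp).2] at this
    exact ⟨fun x hx => (this (subset_tsupport _ hx)).1,
      (cpt_image (ch_mem p) (isCompact_closedBall _ _)).of_isClosed_subset (isClosed_tsupport _)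
        (this.trans inter_subset_right), .intro (cpt_image (h (σ p)).mem (isCompact_closedBall _ _))
        fun z hz => by_contra fun q => hz ((h _).pre z (this (subset_tsupport _ q)).1)⟩
  have ci := hι.emb.continuous
  refine ⟨fun x => ∑ p ∈ t.filter (· ∈ C), χ p x, continuous_finsetSum _ fun p _ => (a1 p).cont,
    fun x => ⟨Finset.sum_nonneg fun p _ => a3 p x, (Finset.sum_le_sum_of_subset_of_nonneg
      (Finset.filter_subset _ _) fun p _ _ => a3 p x).trans (a4 x)⟩, fun x hx => ?_,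
    .intro ((t.filter (· ∈ C)).isCompact_biUnion fun p hp => (b1 p hp).2.2) fun z hz =>
      Finset.sum_eq_zero fun p hp => by_contra fun q => hz (mem_biUnion hp (subset_tsupport _ q)),
    fun ζ hζ θ hθ h1 => ?_⟩
  · have : ∀ᶠ y in 𝓝 x, ∀ p ∈ t, p ∉ C → χ p y = 0 := (eventually_all_finset t).2 fun p _ => by
      by_cases q : p ∈ C
      · exact .of_forall fun _ a => (a q).elim
      · have := a2 p
        rw [if_neg q] at this
        filter_upwards [notMem_tsupport_iff_eventuallyEq.1 fun a => this a hx] with y b _ using b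
    filter_upwards [a5 x hx, this] with y a b
    rw [← a]
    exact Finset.sum_filter_of_ne fun p hp q => by_contra fun s => q (b p hp s)
  · have t1 := tendsto_finsetSum (t.filter (· ∈ C)) fun p hp => A.loc (h (σ p)) hι hg hs
      ((a1 p).cont.fun_mul hζ) (fun x hx => (b1 p hp).1 x (left_ne_zero_of_mul hx)) hθ h1
    rw [← Finset.sum_mul, ← integral_finsetSum _ fun p hp => (hι.met hg).integrable_supp
      ((((a1 p).cont.comp' ci).fun_mul (hζ.comp' ci)).fun_mul A.cv0)
      (b1 p hp).2.2.mul_right.mul_right] at t1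
    simp only [Finset.sum_mul]
    refine t1.congr fun i => (integral_finsetSum _ fun p hp => hg.integrable_supp
      ((((a1 p).cont.fun_mul hζ).fun_mul (hθ.comp' (hu i))).fun_mul (A.cw i))
      (b1 p hp).2.1.mul_right.mul_right.mul_right).symm

theorem adm_w (hι : Sub ι B) (hg : Met g) (hu : ∀ i, Smooth (u i)) :
    Adm l g u S ι (fun i x => ww g 1 (u i) x - 1) fun _ => 1 := by
  refine ⟨fun i => (sm_w hg (hu i)).cont.sub continuous_const, continuous_const,
    fun e φ π y₀ r Ψ V c h => ⟨fun i y => P366Z.dens (gp (rep e g) (fam Ψ φ i)) y -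
      P366Z.dens (pb (fam Ψ φ i) (rep e g)) y, fun x hx => ⟨?_, ?_, fun i p => ?_⟩⟩⟩
  · exact (c0_of ((h.cv_g hx hg).dens (h.det_pos hι hx hg)).b0).map₂ (c0_of (P366P.cv_det
      (A := fun i y => Stmt.mat (pb (fam Ψ φ i) (rep e g)) y) le_sup_right (h.cv_T hx hg.sm).2).b0)
      (φ := fun p => p.1 - √p.2) (by fun_prop)
  · beta_reduce
    rw [P366Z.dens_of_eq (h.lim_g hι hx g).self_of_nhds, P366P.dens_prd,
      P366Z.dens_of_eq (h.lim_T hι hx g).self_of_nhds, P366Z.dens,
      Matrix.det_eq_zero_of_row_eq_zero (A := Stmt.mat (pb ini _) x) (last k) (P366P.pb_l1 _ x)]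
    simp
  · simp only [fam, p.dens hg]; ring

theorem adm_Jd (hι : Sub ι B) (hg : Met g) (hu : ∀ i, Smooth (u i)) {F : Fin k → X → ℝ}
    (hF : ∀ j, Smooth (F j)) :
    Adm l g u S ι (fun i x => |Jd g (Fin.snoc (α := fun _ => X → ℝ) F (u i)) x|)
      fun z => |Jd (pull ι g) (fun j z => F j (ι z)) z| := by
  have sm i j : Smooth (Fin.snoc (α := fun _ => X → ℝ) F (u i) j) := by
    refine Fin.lastCases ?_ (fun j => ?_) j <;> simp [hu, hF]
  refine ⟨fun i => cont_abs_Jd hg (sm i), cont_abs_Jd (hι.met hg) fun j => smooth_comp hι.sm (hF j),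
    fun e φ π y₀ r Ψ V c h => ⟨fun i y => |(Matrix.of fun j a : Fin k =>
      Stmt.pd a.castSucc (fun y => F j (e.symm (fam Ψ φ i y))) y).det|,
      fun x hx => ⟨?_, ?_, fun i p => ?_⟩⟩⟩
  · have := c0_of (P366P.cv_det (A := fun i y => Matrix.of fun j a : Fin k =>
      Stmt.pd a.castSucc (fun y => F j (e.symm (fam Ψ φ i y))) y) le_sup_right
        fun j a => (h.cv_f hx (hF j)).pd a.castSucc).b0
    exact this.map₂ this (φ := fun p => |p.1|) (by fun_prop)
  · simp only [abs_Jd_loc (hι.met hg) h.mem fun j => (smooth_comp hι.sm (hF j)).diff _,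
      P366Z.pd_congr (h.lim_f hx (F _)), P366P.pd_cs]
  · obtain ⟨e', m', -, -, -, s3, s4, -⟩ := p.chart
    rw [mul_comm, ← P366Z.dens_of_eq (s4 g).self_of_nhds,
      ← show e'.symm x = e.symm (Ψ i x) from s3.self_of_nhds,
      abs_Jd_loc hg m' fun j => (sm i j).diff _, det_last _ fun a => ?_]
    · beta_reduce
      congr 3
      funext j a
      simp only [Matrix.of_apply, Fin.snoc_castSucc]
      exact P366Z.pd_congr (s3.mono fun y q => by simp only [P366M.loc, q, fam]) _
    · rw [Matrix.of_apply, Fin.snoc_last, ← P366Z.pd_coord a (last k) x]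
      exact P366Z.pd_congr (by
        filter_upwards [s3, p.sm] with y a b using by rw [P366M.loc, a, b.2]) _

theorem nij : P223U.NIJ := by
  intro k X Z I _ _ 𝒰 g f h u c e O K Sg Λ ι F ζ θ V hSg hι hr hF hζ ζ0 hs hθ hc θ0 N hN hz δ δ0
  obtain ⟨R, hR⟩ := hc.isCompact.isBounded.subset_closedBall_lt 0 0
  have h1 : ∀ s, θ s ≠ 0 → |s| ≤ R := fun s q => by simpa using hR.2 (subset_tsupport _ q)
  obtain ⟨ψ, p1, -, p3, -, p5⟩ := (adm_Jd hι V.met V.smu hF).glob hι V.met (fun i => (V.smu i).cont)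
    (.of_forall (V.slab R)) (hr R hR.1) (V.cpt_la.inter_right (isClosed_tsupport ζ))
    fun x hx => ⟨hx.1, fun q => hs x q hx.2⟩
  have t := p5 ζ hζ θ hθ h1
  rw [setIntegral_eq_integral_of_forall_compl_eq_zero (s := Icc (-R) R) fun s q => by_contra fun a =>
    q (abs_le.1 (h1 s a)), mul_comm, integral_congr_ae (g := fun z => ζ (ι z) *
      |Jd (pull ι g) (fun j z => F j (ι z)) z|) (.of_forall fun z => ?_),
    ← setIntegral_eq_integral_of_forall_compl_eq_zero (s := N) fun z q => by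
      rw [not_not.1 (mt (hz z) q), zero_mul]] at t
  · filter_upwards [t.eventually (gt_mem_nhds (lt_add_of_pos_right _ δ0)), V.cf R, V.conc R
      (isOpen_interior.union (isClosed_tsupport ζ).isOpen_compl) (N := interior {y | ψ y = 1} ∪ _)
      fun x hx => or_iff_not_imp_right.2 fun q =>
        mem_interior_iff_mem_nhds.2 (p3 x ⟨hx, not_not.1 q⟩)] with i a b d
    rw [setIntegral_eq_integral_of_forall_compl_eq_zero fun x q => by
      rw [not_not.1 fun s => q (b x (h1 _ s)), mul_zero, zero_mul]]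
    refine le_of_eq_of_le (integral_congr_ae (.of_forall fun x => ?_)) a.le
    by_cases q : θ (u i x) = 0
    · simp [q]
    rcases d x (h1 _ q) with s | s
    · simp only [mem_ofPred.1 (interior_subset s), one_mul]
    · simp [image_eq_zero_of_notMem_tsupport s]
  · by_cases q : ζ (ι z) = 0
    · simp [q]
    · simp only [(p3 _ ⟨(hι.rng ▸ mem_range_self z : ι z ∈ _ \ Sg).1,
        subset_tsupport _ q⟩).self_of_nhds, one_mul]

/-- the calibration inequality -/
theorem calib {n : ℕ} {M : Type} [Mf0 n M] {g : Fld n M} {f u B : M → ℝ} {K : Set M} {κ : ℝ}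
    (hg : Met g) (hf : Smooth f) (hu : Smooth u) (hB : Smooth B) (hK : IsCompact K)
    (B0 : ∀ x, 0 ≤ B x ∧ B x ≤ 1) (κ0 : 0 ≤ κ) {χ : ℝ → ℝ} (hχ : ContDiff ℝ ∞ χ)
    (χ0 : ∀ t, 0 ≤ χ t ∧ χ t ≤ 1) (h0 : ∀ x ∉ K, χ (u x) = B x)
    (h1 : ∀ x ∈ K, (B x < χ (u x) → -κ ≤ hw g f u x) ∧ (χ (u x) < B x → hw g f u x ≤ κ)) :
    ∫ x in K, Real.exp (f x) * (deriv χ (u x) * dn g u u x) ∂vol g ≤
      ∫ x in K, Real.exp (f x) * (gn g B x + κ) ∂vol g := by
  have := hg.locFin
  have s : Smooth fun x => χ (u x) - B x := CD.sub (hχ.compM hu) hB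
  have z : ∀ x ∉ K, χ (u x) - B x = 0 := fun x hx => sub_eq_zero.2 (h0 x hx)
  have c : HasCompactSupport fun x => χ (u x) - B x := .intro hK z
  have t := test_id hg hf.one hu s.llip c
  have z' : ∀ x ∉ K, x ∉ tsupport fun x => χ (u x) - B x := fun x hx q =>
    hx (closure_minimal (Function.support_subset_iff'.2 z) hK.isClosed q)
  rw [← setIntegral_eq_integral_of_forall_compl_eq_zero (s := K) fun x hx => by simp [z x hx],
    ← setIntegral_eq_integral_of_forall_compl_eq_zero (s := K)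
      (f := fun x => Real.exp (f x) * dn g u _ x) fun x hx => by
      simp [dn, ip, pd_zero_of_notMem (z' x hx)], eq_neg_iff_add_eq_zero, ← integral_add
    ((hf.cont.rexp.fun_mul (s.cont.fun_mul (sm_hw hg hf hu).cont)).continuousOn.integrableOn_compact hK)
    ((hf.cont.rexp.fun_mul (sm_dn hg hu s).cont).continuousOn.integrableOn_compact hK)] at t
  have i := (hf.cont.rexp.fun_mul ((hg.cont_gn hB.one).add_const κ)).continuousOn.integrableOn_compact
    (μ := vol g) hK
  rw [← zero_add (∫ x in K, _ * (gn g B x + κ) ∂vol g), ← t, ← integral_add (((hf.cont.rexp.fun_mul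
    (s.cont.fun_mul (sm_hw hg hf hu).cont)).fun_add (hf.cont.rexp.fun_mul
      (sm_dn hg hu s).cont)).continuousOn.integrableOn_compact hK) i]
  refine setIntegral_mono_on ((hf.cont.rexp.fun_mul (((hχ.continuous_deriv (by simp)).comp'
    hu.cont).fun_mul (sm_dn hg hu hu).cont)).continuousOn.integrableOn_compact hK)
    ((((hf.cont.rexp.fun_mul (s.cont.fun_mul (sm_hw hg hf hu).cont)).fun_add (hf.cont.rexp.fun_mul
      (sm_dn hg hu s).cont)).continuousOn.integrableOn_compact hK).add i) hK.measurableSet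
    fun x hx => ?_
  rw [dn_lin (s := deriv χ (u x)) (t := -1) (v := fun x => χ (u x) - B x) (w := u) (ζ := B) fun i => by
    rw [P366M.pd_sub ((hχ.compM hu).differentiable (by simp) x) (hB.diff x),
      P366M.pd_comp (hχ.differentiable (by simp) _).hasDerivAt (hu.diff x)]; ring, ← mul_add, ← mul_add]
  refine mul_le_mul_of_nonneg_left ?_ (Real.exp_pos _).le
  have a := (le_abs_self _).trans (abs_dn_le hg u B x)
  have b : -κ ≤ (χ (u x) - B x) * hw g f u x := by
    rcases lt_trichotomy (B x) (χ (u x)) with q | q | q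
    · nlinarith [(h1 x hx).1 q, (χ0 (u x)).2, (B0 x).1]
    · simp [q, κ0]
    · nlinarith [(h1 x hx).2 q, (χ0 (u x)).1, (B0 x).2]
  linarith

theorem trace : P223U.TRACE := by
  intro k X Z I _ _ 𝒰 g f h u c e O K A Λ κ ι B V hι hr hB B0 κ0 hs N hN
  have := V.met.locFin
  have ci := hι.emb.continuous
  have sχ : ContDiff ℝ ∞ Real.smoothTransition := Real.smoothTransition.contDiff
  have cθ := sχ.continuous_deriv (by simp)
  have θ0 t : 0 ≤ deriv Real.smoothTransition t := Real.smoothTransition.monotone.deriv_nonneg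
  have h1 s (q : deriv Real.smoothTransition s ≠ 0) : |s| ≤ 1 := by
    refine abs_le.2 ⟨not_lt.1 fun a => q ?_, not_lt.1 fun a => q ?_⟩
    · rw [EventuallyEq.deriv_eq (f := fun _ => 0) ((gt_mem_nhds a).mono fun t b =>
        Real.smoothTransition.zero_of_nonpos (by linarith)), deriv_const]
    · rw [EventuallyEq.deriv_eq (f := fun _ => 1) ((lt_mem_nhds a).mono fun t b =>
        Real.smoothTransition.one_of_one_le b.le), deriv_const]
  obtain ⟨ψ, p1, p2, p3, p4, p5⟩ := (adm_w hι V.met V.smu).glob hι V.met (fun i => (V.smu i).cont)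
    (.of_forall fun i => ⟨isClosed_le (V.smu i).cont.abs continuous_const, fun _ _ =>
      .of_forall fun _ => CD.contDiffAt (V.smu i)⟩) (hr 1 one_pos) (hN.image ci)
    (hι.rng ▸ image_subset_range _ _)
  have t := p5 _ V.smf.cont.rexp _ cθ h1
  rw [integral_Icc_eq_integral_Ioc, ← intervalIntegral.integral_of_le (by norm_num),
    intervalIntegral.integral_deriv_eq_sub (fun t _ => sχ.differentiable (by simp) t)
      (cθ.intervalIntegrable _ _), Real.smoothTransition.one_of_one_le le_rfl,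
    Real.smoothTransition.zero_of_nonpos (by norm_num), sub_zero, mul_one] at t
  refine le_trans ?_ (le_of_tendsto t ?_)
  · rw [setIntegral_congr_fun (g := fun z => ψ (ι z) * Real.exp (f (ι z)) * 1) hN.measurableSet
      fun z hz => by simp [(p3 _ ⟨z, hz, rfl⟩).self_of_nhds]]
    exact setIntegral_le_integral ((hι.met V.met).integrable_supp (((p1.comp' ci).fun_mul
      (V.smf.cont.rexp.comp' ci)).fun_mul continuous_const) p4.mul_right.mul_right)
      (.of_forall fun z => mul_nonneg (mul_nonneg (p2 _).1 (Real.exp_pos _).le) zero_le_one)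
  filter_upwards [hs 1, V.cf 1] with i a b
  refine le_trans ?_ (calib V.met V.smf (V.smu i) hB V.cpt B0 κ0 sχ (fun t =>
    ⟨Real.smoothTransition.nonneg t, Real.smoothTransition.le_one t⟩) (fun x hx => ?_)
    fun x hx => ⟨fun q => ((a x).2 hx).1 (not_lt.1 fun s => ?_)
      (q.trans_le (Real.smoothTransition.le_one _)), fun q => ((a x).2 hx).2 (not_lt.1 fun s => ?_)
        ((Real.smoothTransition.nonneg _).trans_lt q)⟩)
  · rw [← setIntegral_eq_integral_of_forall_compl_eq_zero (s := K) fun x q => by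
      rw [not_not.1 fun s => q (b x (h1 _ s)), mul_zero, zero_mul]]
    refine setIntegral_mono_on ((((p1.fun_mul V.smf.cont.rexp).fun_mul (cθ.comp'
      (V.smu i).cont)).fun_mul ((sm_w V.met (V.smu i)).cont.sub
        continuous_const)).continuousOn.integrableOn_compact V.cpt) ((V.smf.cont.rexp.fun_mul
      ((cθ.comp' (V.smu i).cont).fun_mul (sm_dn V.met (V.smu i)
        (V.smu i)).cont)).continuousOn.integrableOn_compact V.cpt) V.cpt.measurableSet fun x _ => ?_
    have w1 : 1 ≤ ww g 1 (u i) x := by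
      nlinarith [w_sq V.met (u i) x, w_pos V.met (u i) x, V.met.ip_nonneg (u i) x]
    have w2 : ww g 1 (u i) x - 1 ≤ dn g (u i) (u i) x := by
      rw [dn, le_div_iff₀ (w_pos V.met _ x)]; nlinarith [w_sq V.met (u i) x]
    rw [← mul_assoc]
    exact mul_le_mul (mul_le_mul_of_nonneg_right (mul_le_of_le_one_left (Real.exp_pos _).le
      (p2 x).2) (θ0 _)) w2 (by linarith) (mul_nonneg (Real.exp_pos _).le (θ0 _))
  · rcases (a x).1 hx with q | q
    · rw [q.1, Real.smoothTransition.zero_of_nonpos (by linarith [q.2])]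
    · rw [q.1, Real.smoothTransition.one_of_one_le q.2.le]
  · rw [Real.smoothTransition.zero_of_nonpos (by linarith)] at q
    exact q.not_ge (B0 x).1
  · rw [Real.smoothTransition.one_of_one_le s.le] at q
    exact q.not_ge (B0 x).2

end Vale.Agent.P223D
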