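import Vale.Agent.P223B.Sg
import Vale.Agent.P210V.MixR

/-!
# P223D: `PA` from `ST1` and `AMP` (helper26)
-/

open Vale.Agent.P366M Vale.Agent.P223F Vale.Agent.P223A Vale.Agent.P223B

noncomputable section

namespace Vale.Agent.P223D

theorem pa_of {n : ℕ} (h1 : ST1 n) (h2 : AMP n) : PA n := by
  obtain ⟨γ, γ0, h1⟩ := h1
  obtain ⟨e₀, e0, C₂, h2⟩ := h2 γ γ0
  obtain ⟨C₁, h1⟩ := h1 e₀ e0
  refine ⟨γ⁻¹, inv_pos.2 γ0, Real.exp ((C₁ + C₂) / γ), Real.exp_pos _,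
    fun X Γ _ _ _ g₀ χ G hs F => ?_⟩
  obtain ⟨δ, δ0, δ1, K₀, cK₀, Λ, h1⟩ := h1 X Γ g₀ χ G hs F
  obtain ⟨K, L, cK, h2⟩ := h2 X Γ G.deck F g₀ G.riem K₀ cK₀ Λ
  obtain ⟨g, v, Q, b, φ, a1, a2, a3⟩ := h1 L
  refine ⟨δ, δ0, δ1, K, cK, fun ε ε0 ε1 => ?_⟩
  obtain ⟨g', v', Q', y, b1, b2, b3⟩ := h2 g v Q b φ (fun _ x => -γ * ld g₀ x - C₁) δ a1 a2 δ1
    (fun o x => ⟨(a3 o x).1, (a3 o x).2.1, by linarith [(a3 o x).2.2]⟩) ε ε0 ε1
  have cs : Cs (fun o x => y o x ^ 2) K := fun o x q => by simp [b2.cs o x q]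
  refine ⟨g', v', Q', fun o x => y o x ^ 2, b1, ⟨⟨⟨b2.tr.map fun _ t => t ^ 2,
    fun o => CD.pow (b2.sm o) 2, K, cK, cs⟩, b2.one⟩, cs, fun _ _ => sq_nonneg _, fun o x => ?_⟩,
    fun o x => ?_⟩
  · obtain ⟨T, hT⟩ := vis G.deck cK x
    refine le_trans ?_ (b3 o x).1
    rw [Eg, Sg_eq (cs_ip cK b2.cs g') hT, finsum_eq_sum_of_support_subset (s := T) _ fun a e =>
      hT a (by_contra fun q => e (P210V.fi_zero (g := g' o) (cs _ _ q)))]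
    exact Finset.sum_le_sum fun a _ => (P210V.fi_sq_le (b1.met o)
      ((sm_lb G.deck b2.sm a o).diff x)).trans (lb_ip G.deck b1.rg.inv a y o x).ge
  · have e (k : Fld n X) (hk : Met k) : √(mat k x).det = Real.exp (ld k x) :=
      (Real.exp_log (Real.sqrt_pos.2 (hk.det_pos x))).symm
    have e' : ε ^ n = Real.exp (-(n * Real.log ε⁻¹)) := by
      rw [Real.log_inv, mul_neg, neg_neg, Real.exp_nat_mul, Real.exp_log ε0]
    rw [md, dr, e _ (b1.met o), e _ G.riem.met, e', ← Real.exp_sub, ← Real.exp_add, ← Real.exp_sub,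
      Real.exp_le_exp, ← mul_le_mul_iff_right₀ γ0]
    have := (b3 o x).2
    generalize Real.log ε⁻¹ = t at this ⊢
    field_simp
    linarith

end Vale.Agent.P223D
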